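import Mathlib.Analysis.Fourier.AddCircle
import Mathlib.MeasureTheory.Measure.HasOuterApproxClosed
import Mathlib.MeasureTheory.Function.ContinuousMapDense
import Mathlib.MeasureTheory.Integral.DominatedConvergence
import Mathlib.Dynamics.Ergodic.AddCircle

/-!
Measures on the circle determined by their Fourier coefficients, and the positivity of translates
of an absolutely continuous measure on a set of positive measure.
-/

open MeasureTheory Filter Set
open scoped ENNReal Topology BoundedContinuousFunction ComplexConjugate

namespace Vale.Agent.P130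

/-- The circle of length one. -/
abbrev Circ : Type := AddCircle (1 : ℝ)

noncomputable section

/-- The normalised Haar measure of the circle. -/
abbrev haar : Measure Circ := AddCircle.haarAddCircle

theorem haar_singleton (z : Circ) : haar {z} = 0 := by
  have h : (volume : Measure Circ) = haar := by
    rw [AddCircle.volume_eq_smul_haarAddCircle]; simp
  rw [← h, ← Metric.closedBall_zero, AddCircle.volume_closedBall]
  simp

theorem integrable_cont (ρ : Measure Circ) [IsFiniteMeasure ρ] (u : C(Circ, ℂ)) :
    Integrable u ρ :=
  Integrable.of_bound u.continuous.aestronglyMeasurable ‖u‖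
    (Eventually.of_forall u.norm_coe_le_norm)

/-- Two finite measures on the circle with the same Fourier coefficients are equal. -/
theorem ext_fourier {ν ν' : Measure Circ} [IsFiniteMeasure ν] [IsFiniteMeasure ν']
    (h : ∀ n : ℤ, ∫ x, fourier n x ∂ν = ∫ x, fourier n x ∂ν') : ν = ν' := by
  have hspan : ∀ p ∈ Submodule.span ℂ (range (@fourier (1 : ℝ))),
      ∫ x, p x ∂ν = ∫ x, p x ∂ν' := by
    intro p hp
    induction hp using Submodule.span_induction with
    | mem u hu => obtain ⟨n, rfl⟩ := hu; exact h n
    | zero => simp
    | add u v _ _ hu hv =>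
      simp only [ContinuousMap.add_apply]
      rw [integral_add (integrable_cont ν u) (integrable_cont ν v),
        integral_add (integrable_cont ν' u) (integrable_cont ν' v), hu, hv]
    | smul c u _ hu =>
      simp only [ContinuousMap.smul_apply, smul_eq_mul]
      rw [integral_const_mul, integral_const_mul, hu]
  refine ext_of_forall_integral_eq_of_IsFiniteMeasure fun f => ?_
  let g : C(Circ, ℂ) := ⟨fun x => (f x : ℂ), Complex.continuous_ofReal.comp f.continuous⟩
  have hg : g ∈ (Submodule.span ℂ (range (@fourier (1 : ℝ)))).topologicalClosure := by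
    rw [span_fourier_closure_eq_top]; exact Submodule.mem_top
  rw [← SetLike.mem_coe, Submodule.topologicalClosure_coe, Metric.mem_closure_iff] at hg
  have hc : (∫ x, g x ∂ν) = ∫ x, g x ∂ν' := by
    refine eq_of_forall_dist_le fun ε hε => ?_
    obtain ⟨p, hp, hd⟩ := hg (ε / (ν.real univ + ν'.real univ + 1)) (by positivity)
    have key : ∀ (ρ : Measure Circ) [IsFiniteMeasure ρ],
        dist (∫ x, g x ∂ρ) (∫ x, p x ∂ρ) ≤ dist g p * ρ.real univ := by
      intro ρ _
      rw [dist_eq_norm, ← integral_sub (integrable_cont ρ g) (integrable_cont ρ p)]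
      refine norm_integral_le_of_norm_le_const (Eventually.of_forall fun x => ?_)
      rw [← dist_eq_norm]
      exact ContinuousMap.dist_apply_le_dist x
    have h1 := key ν
    have h2 := key ν'
    rw [hspan p hp] at h1
    have h3 := dist_triangle_right (∫ x, g x ∂ν) (∫ x, g x ∂ν') (∫ x, p x ∂ν')
    have h4 : dist g p * (ν.real univ + ν'.real univ + 1) ≤ ε := by
      have := (lt_div_iff₀ (show (0 : ℝ) < ν.real univ + ν'.real univ + 1 by positivity)).1 hd
      linarith
    nlinarith [dist_nonneg (x := g) (y := p)]
  simp only [g, ContinuousMap.coe_mk, integral_complex_ofReal] at hc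
  exact_mod_cast hc

/-- An integrable function with vanishing Fourier coefficients vanishes almost everywhere. -/
theorem ae_eq_zero_of_fourier {F : Circ → ℂ} (hF : Integrable F haar)
    (h : ∀ n : ℤ, ∫ x, fourier n x * F x ∂haar = 0) : F =ᵐ[haar] 0 := by
  have hc : ∀ n : ℤ, ∫ x, fourier n x * conj (F x) ∂haar = 0 := by
    intro n
    have h' := congrArg (starRingEnd ℂ) (h (-n))
    rw [← integral_conj, map_zero] at h'
    simpa [map_mul, fourier_neg] using h'
  -- real part and imaginary part as signed densities
  have key : ∀ a : Circ → ℝ, Integrable a haar →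
      (∀ n : ℤ, ∫ x, fourier n x * (a x : ℂ) ∂haar = 0) → a =ᵐ[haar] 0 := by
    intro a ha h0
    have hp := ha.pos_part
    have hn := ha.neg_part
    set p : Circ → ℝ := fun x => max (a x) 0
    set q : Circ → ℝ := fun x => max (-a x) 0
    have hpm : AEMeasurable p haar := hp.aemeasurable
    have hqm : AEMeasurable q haar := hn.aemeasurable
    have := isFiniteMeasure_withDensity_ofReal hp.hasFiniteIntegral
    have := isFiniteMeasure_withDensity_ofReal hn.hasFiniteIntegral
    have eI : ∀ (b : Circ → ℝ), Integrable b haar → (∀ x, 0 ≤ b x) → ∀ n : ℤ,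
        ∫ x, fourier n x ∂(haar.withDensity fun x => ENNReal.ofReal (b x)) =
          ∫ x, fourier n x * (b x : ℂ) ∂haar := by
      intro b hb hb0 n
      rw [integral_withDensity_eq_integral_toReal_smul₀ hb.aemeasurable.ennreal_ofReal
        (Eventually.of_forall fun _ => ENNReal.ofReal_lt_top)]
      refine integral_congr_ae (Eventually.of_forall fun x => ?_)
      simp only [ENNReal.toReal_ofReal (hb0 x), Complex.real_smul, mul_comm]
    have e : haar.withDensity (fun x => ENNReal.ofReal (p x)) =
        haar.withDensity (fun x => ENNReal.ofReal (q x)) := by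
      refine ext_fourier fun n => ?_
      rw [eI p hp (fun x => le_max_right _ _) n, eI q hn (fun x => le_max_right _ _) n, ← sub_eq_zero,
        ← integral_sub, ← h0 n]
      · refine integral_congr_ae (Eventually.of_forall fun x => ?_)
        simp only [p, q, ← mul_sub, ← Complex.ofReal_sub]
        congr 2
        rcases le_total 0 (a x) with h1 | h1 <;> simp [h1]
      · exact hp.ofReal.bdd_mul (fourier n).continuous.aestronglyMeasurable
          (Eventually.of_forall (fourier n).norm_coe_le_norm)
      · exact hn.ofReal.bdd_mul (fourier n).continuous.aestronglyMeasurable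
          (Eventually.of_forall (fourier n).norm_coe_le_norm)
    rw [withDensity_eq_iff_of_sigmaFinite hpm.ennreal_ofReal hqm.ennreal_ofReal] at e
    filter_upwards [e] with x hx
    have h1 := congrArg ENNReal.toReal hx
    rw [ENNReal.toReal_ofReal (le_max_right _ _), ENNReal.toReal_ofReal (le_max_right _ _)] at h1
    change max (a x) 0 = max (-a x) 0 at h1
    show a x = 0
    linarith [max_zero_sub_max_neg_zero_eq_self (a x)]
  have hb : ∀ n : ℤ, Integrable (fun x => fourier n x * F x) haar := fun n =>
    hF.bdd_mul (fourier n).continuous.aestronglyMeasurable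
      (Eventually.of_forall (fourier n).norm_coe_le_norm)
  have hb' : ∀ n : ℤ, Integrable (fun x => fourier n x * conj (F x)) haar := fun n =>
    (Complex.conjCLE.toContinuousLinearMap.integrable_comp hF).bdd_mul
      (fourier n).continuous.aestronglyMeasurable (Eventually.of_forall (fourier n).norm_coe_le_norm)
  have hre := key (fun x => (F x).re) hF.re fun n => by
    have e : ∀ x, fourier n x * ((F x).re : ℂ) =
        (fourier n x * F x + fourier n x * conj (F x)) / 2 := fun x => by
      rw [← mul_add, Complex.add_conj]; push_cast; ring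
    simp only [e, integral_div, integral_add (hb n) (hb' n), h n, hc n, add_zero, zero_div]
  have him := key (fun x => (F x).im) hF.im fun n => by
    have e : ∀ x, fourier n x * ((F x).im : ℂ) =
        (fourier n x * F x - fourier n x * conj (F x)) / (2 * Complex.I) := fun x => by
      rw [← mul_sub, Complex.sub_conj]
      field_simp
      push_cast
      ring
    simp only [e, integral_div, integral_sub (hb n) (hb' n), h n, hc n, sub_zero, zero_div]
  filter_upwards [hre, him] with x h1 h2
  exact Complex.ext h1 h2

/-- Translates of a nonzero absolutely continuous finite measure give positive mass to a set of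
positive measure on a nonempty open set of translations. -/
theorem exists_open_translate {k : Circ → ℝ≥0∞} (hk : AEMeasurable k haar)
    (hk0 : ¬ k =ᵐ[haar] 0) {P : Set Circ} (hP : MeasurableSet P) (hP0 : haar P ≠ 0) :
    ∃ O : Set Circ, IsOpen O ∧ O.Nonempty ∧
      ∀ y ∈ O, (haar.withDensity k) ((fun x => x + y) ⁻¹' P) ≠ 0 := by
  set k1 : Circ → ℝ := fun x => (min (hk.mk k x) 1).toReal with hk1
  have hk1m : Measurable k1 := (hk.measurable_mk.min measurable_const).ennreal_toReal
  have hk1b : ∀ x, 0 ≤ k1 x ∧ k1 x ≤ 1 := fun x =>
    ⟨ENNReal.toReal_nonneg,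
      ENNReal.toReal_le_of_le_ofReal zero_le_one (by simp)⟩
  set ind : Circ → ℝ := P.indicator fun _ => 1 with hind
  have hindm : Measurable ind := measurable_const.indicator hP
  set φ : Circ → ℝ := fun y => ∫ x, k1 x * ind (x + y) ∂haar with hφ
  have hindb : ∀ z, 0 ≤ ind z ∧ ind z ≤ 1 := fun z => by
    by_cases hz : z ∈ P <;> simp [ind, hz]
  have hbd : ∀ x y, ‖k1 x * ind (x + y)‖ ≤ 1 := fun x y => by
    rw [Real.norm_eq_abs, abs_of_nonneg (mul_nonneg (hk1b x).1 (hindb _).1)]
    exact mul_le_one₀ (hk1b x).2 (hindb _).1 (hindb _).2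
  have hint : ∀ y, Integrable (fun x => k1 x * ind (x + y)) haar := fun y =>
    Integrable.of_bound (hk1m.mul (hindm.comp (measurable_add_const y))).aestronglyMeasurable 1
      (Eventually.of_forall fun x => hbd x y)
  have hint2 : Integrable (Function.uncurry fun x y => k1 x * ind (x + y)) (haar.prod haar) :=
    Integrable.of_bound ((hk1m.comp measurable_fst).mul
      (hindm.comp (measurable_fst.add measurable_snd))).aestronglyMeasurable 1
      (Eventually.of_forall fun z => hbd z.1 z.2)
  have hmass : ∫ y, φ y ∂haar = (∫ x, k1 x ∂haar) * haar.real P := by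
    rw [hφ, ← integral_integral_swap hint2, ← integral_mul_const]
    refine integral_congr_ae (Eventually.of_forall fun x => ?_)
    show ∫ y, k1 x * ind (x + y) ∂haar = k1 x * haar.real P
    rw [integral_const_mul, integral_add_left_eq_self ind x, hind, integral_indicator_const _ hP]
    simp
  have hk1pos : 0 < ∫ x, k1 x ∂haar := by
    rw [integral_pos_iff_support_of_nonneg (fun x => (hk1b x).1)
      (Integrable.of_bound hk1m.aestronglyMeasurable 1 (Eventually.of_forall fun x => by
        rw [Real.norm_eq_abs, abs_of_nonneg (hk1b x).1]; exact (hk1b x).2))]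
    by_contra h0
    apply hk0
    have h0' : haar (Function.support k1) = 0 := le_antisymm (not_lt.1 h0) zero_le
    filter_upwards [hk.ae_eq_mk, compl_mem_ae_iff.2 h0'] with x hx hx0
    simp only [mem_compl_iff, Function.mem_support, not_not, k1] at hx0
    rw [ENNReal.toReal_eq_zero_iff] at hx0
    rcases hx0 with h | h
    · rcases min_eq_iff.1 h with h' | h'
      · rw [hx, h'.1]; rfl
      · exact absurd h'.1 one_ne_zero
    · exact absurd h (ne_top_of_le_ne_top ENNReal.one_ne_top (min_le_right _ _))
  have hPpos : 0 < haar.real P := ENNReal.toReal_pos hP0 (measure_ne_top _ _)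
  obtain ⟨y0, hy0⟩ : ∃ y0, 0 < φ y0 := by
    by_contra h0
    push Not at h0
    have := integral_nonpos_of_ae (μ := haar) (Eventually.of_forall h0)
    rw [hmass] at this
    linarith [mul_pos hk1pos hPpos]
  -- approximation of the indicator by a continuous function
  have hindI : Integrable ind haar := Integrable.of_bound hindm.aestronglyMeasurable 1
    (Eventually.of_forall fun z => by
      rw [Real.norm_eq_abs, abs_of_nonneg (hindb z).1]; exact (hindb z).2)
  obtain ⟨ψ, hψ, hψI⟩ := hindI.exists_boundedContinuous_integral_sub_le
    (show (0 : ℝ) < φ y0 / 3 by positivity)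
  set χ : Circ → ℝ := fun y => ∫ x, k1 x * ψ (x + y) ∂haar
  have hψm : ∀ y, AEStronglyMeasurable (fun x => k1 x * ψ (x + y)) haar := fun y =>
    hk1m.aestronglyMeasurable.mul
      (ψ.continuous.comp (continuous_add_const y)).aestronglyMeasurable
  have hψb : ∀ x y, ‖k1 x * ψ (x + y)‖ ≤ ‖ψ‖ := fun x y => by
    rw [norm_mul, Real.norm_eq_abs, abs_of_nonneg (hk1b x).1]
    exact (mul_le_of_le_one_left (norm_nonneg _) (hk1b x).2).trans (ψ.norm_coe_le_norm _)
  have hχc : Continuous χ := continuous_of_dominated hψm
    (fun y => Eventually.of_forall fun x => hψb x y) (integrable_const _)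
    (Eventually.of_forall fun x => continuous_const.mul (ψ.continuous.comp (continuous_const_add x)))
  have hclose : ∀ y, |φ y - χ y| ≤ φ y0 / 3 := fun y => by
    have hI2 : Integrable (fun x => k1 x * ψ (x + y)) haar :=
      Integrable.of_bound (hψm y) _ (Eventually.of_forall fun x => hψb x y)
    simp only [φ, χ]
    rw [← integral_sub (hint y) hI2]
    refine le_trans (abs_integral_le_integral_abs) (le_trans ?_ hψ)
    calc ∫ x, |k1 x * ind (x + y) - k1 x * ψ (x + y)| ∂haar
        ≤ ∫ x, ‖ind (x + y) - ψ (x + y)‖ ∂haar := by
          refine integral_mono ((hint y).sub hI2).abs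
            (((hindI.sub hψI).norm).comp_add_right y) fun x => ?_
          simp only [← mul_sub, abs_mul, abs_of_nonneg (hk1b x).1, Real.norm_eq_abs]
          exact mul_le_of_le_one_left (abs_nonneg _) (hk1b x).2
      _ = ∫ x, ‖ind x - ψ x‖ ∂haar := integral_add_right_eq_self (fun x => ‖ind x - ψ x‖) y
  refine ⟨{y | φ y0 / 3 < χ y}, isOpen_lt continuous_const hχc, ⟨y0, ?_⟩, fun y hy h0 => ?_⟩
  · simp only [mem_ofPred_eq]; linarith [(abs_le.1 (hclose y0)).2]
  · simp only [mem_ofPred_eq] at hy
    have hφpos : 0 < φ y := by linarith [(abs_le.1 (hclose y)).1]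
    rw [withDensity_apply _ (measurable_add_const y hP),
      lintegral_eq_zero_iff' hk.restrict] at h0
    have : φ y = 0 := by
      refine integral_eq_zero_of_ae ?_
      filter_upwards [hk.ae_eq_mk, (ae_restrict_iff' (measurable_add_const y hP)).1 h0] with x hx hx0
      by_cases hz : x + y ∈ P
      · have : hk.mk k x = 0 := by rw [← hx]; exact hx0 hz
        simp [k1, this]
      · simp [ind, hz]
    linarith

end

end Vale.Agent.P130
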