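import Vale.Agent.P130.Circle
import Mathlib.Probability.Independence.Integration
import Mathlib.MeasureTheory.Function.L2Space
import Mathlib.Analysis.InnerProductSpace.PiL2

/-!
Independent factors of a transformation with absolutely continuous spectrum of bounded multiplicity.
-/

open MeasureTheory Filter Set ProbabilityTheory
open scoped ENNReal Topology ComplexConjugate

namespace Vale.Agent.P130

noncomputable section

set_option linter.unusedSectionVars false

variable {X : Type*} {mX : MeasurableSpace X} {μ : Measure X} {T : X → X}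

/-- A square-integrable function of mean zero. -/
def MeanZeroL2 (μ : Measure X) (g : X → ℂ) : Prop := MemLp g 2 μ ∧ ∫ x, g x ∂μ = 0

/-- The inner product of two functions. -/
def dotL2 {Y : Type*} {mY : MeasurableSpace Y} (ν : Measure Y) (f g : Y → ℂ) : ℂ :=
  ∫ y, f y * conj (g y) ∂ν

/-- `G` is, almost everywhere, `F` times the coordinate of the circle. -/
def IsCoordMul (F G : Circ → ℂ) : Prop :=
  G =ᵐ[haar] fun x => (AddCircle.toCircle x : ℂ) * F x

/-- The Koopman operator of `T` on the mean-zero functions embeds isometrically into `N` copies of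
multiplication by the coordinate on `L²` of the circle. -/
def ACSpectrumAtMost (N : ℕ) (T : X → X) (μ : Measure X) : Prop :=
  ∃ V : (X → ℂ) → Fin N → Circ → ℂ, ∀ g, MeanZeroL2 μ g →
    (∀ i, MemLp (V g i) 2 haar ∧ IsCoordMul (V g i) (V (g ∘ T) i)) ∧
      ∀ h, MeanZeroL2 μ h → ∑ i, dotL2 haar (V g i) (V h i) = dotL2 μ g h

/-- The Koopman operator of `T` on the mean-zero functions is unitarily equivalent to
multiplication by the coordinate on `L²` of the circle. -/
def SimpleLebesgueSpectrum (T : X → X) (μ : Measure X) : Prop :=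
  ∃ V : (X → ℂ) → Circ → ℂ,
    (∀ g, MeanZeroL2 μ g → MemLp (V g) 2 haar ∧ IsCoordMul (V g) (V (g ∘ T)) ∧
      ∀ h, MeanZeroL2 μ h → dotL2 haar (V g) (V h) = dotL2 μ g h) ∧
    ∀ F, MemLp F 2 haar → ∃ g, MeanZeroL2 μ g ∧ V g =ᵐ[haar] F

theorem acSpectrumAtMost_one (h : SimpleLebesgueSpectrum T μ) : ACSpectrumAtMost 1 T μ := by
  obtain ⟨V, hV, -⟩ := h
  refine ⟨fun g _ => V g, fun g hg => ⟨fun _ => ⟨(hV g hg).1, (hV g hg).2.1⟩, fun h hh => ?_⟩⟩
  simpa using (hV g hg).2.2 h hh

/-- A bounded measurable function of mean zero. -/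
structure Bd (μ : Measure X) (a : X → ℂ) : Prop where
  meas : Measurable a
  bdd : ∃ C, ∀ x, ‖a x‖ ≤ C
  mean : ∫ x, a x ∂μ = 0

variable [IsProbabilityMeasure μ]

theorem memLp_bdd {a : X → ℂ} (ha : Measurable a) (hb : ∃ C, ∀ x, ‖a x‖ ≤ C) (p : ℝ≥0∞) :
    MemLp a p μ := by
  obtain ⟨C, hC⟩ := hb
  exact MemLp.of_bound ha.aestronglyMeasurable C (Eventually.of_forall hC)

theorem int_bdd {a : X → ℂ} (ha : Measurable a) (hb : ∃ C, ∀ x, ‖a x‖ ≤ C) : Integrable a μ :=
  memLp_one_iff_integrable.1 (memLp_bdd ha hb 1)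

theorem Bd.comp {a : X → ℂ} (ha : Bd μ a) (hT : MeasurePreserving T μ μ) : Bd μ (a ∘ T) := by
  obtain ⟨C, hC⟩ := ha.bdd
  refine ⟨ha.meas.comp hT.measurable, ⟨C, fun x => hC (T x)⟩, ?_⟩
  have := integral_map hT.measurable.aemeasurable (f := a) (μ := μ) ha.meas.aestronglyMeasurable
  rw [hT.map_eq, ha.mean] at this
  exact this.symm

theorem Bd.iter {a : X → ℂ} (ha : Bd μ a) (hT : MeasurePreserving T μ μ) (n : ℕ) :
    Bd μ (a ∘ T^[n]) :=
  ha.comp (hT.iterate n)

/-- The correlation of two functions along `T`. -/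
def cor (T : X → X) (μ : Measure X) (a b : X → ℂ) (n : ℕ) : ℂ :=
  ∫ x, a (T^[n] x) * conj (b x) ∂μ

variable {N : ℕ}

/-- The spectral representative of a function. -/
abbrev spec (V : (X → ℂ) → Fin N → Lp ℂ 2 haar) (a : X → ℂ) (i : Fin N) : Circ → ℂ :=
  (V a i : Circ → ℂ)

/-- The spectral cross density of two functions. -/
def pairD (V : (X → ℂ) → Fin N → Lp ℂ 2 haar) (a b : X → ℂ) (x : Circ) : ℂ :=
  ∑ i, spec V a i x * conj (spec V b i x)

/-- The spectral density of a function. -/
def dens (V : (X → ℂ) → Fin N → Lp ℂ 2 haar) (a : X → ℂ) (x : Circ) : ℝ :=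
  ∑ i, ‖spec V a i x‖ ^ 2

/-- The spectral measure of a function. -/
def specM (V : (X → ℂ) → Fin N → Lp ℂ 2 haar) (a : X → ℂ) : Measure Circ :=
  haar.withDensity fun x => ENNReal.ofReal (dens V a x)

/-- The two properties of a spectral representation. -/
def Rep (V : (X → ℂ) → Fin N → Lp ℂ 2 haar) (T : X → X) (μ : Measure X) : Prop :=
  ∀ a b : X → ℂ, Bd μ a → Bd μ b →
    (∑ i, inner ℂ (V b i) (V a i) = ∫ x, a x * conj (b x) ∂μ) ∧
    ∀ i, spec V (a ∘ T) i =ᵐ[haar] fun x => fourier 1 x * spec V a i x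

theorem exists_rep (h : ACSpectrumAtMost N T μ) :
    ∃ V : (X → ℂ) → Fin N → Lp ℂ 2 haar, ∀ _hT : MeasurePreserving T μ μ, Rep V T μ := by
  classical
  obtain ⟨W, hW⟩ := h
  let V : (X → ℂ) → Fin N → Lp ℂ 2 haar := fun a i =>
    if h : MemLp (W a i) 2 haar then h.toLp _ else 0
  refine ⟨V, fun hT a b ha hb => ?_⟩
  have hz : ∀ {c : X → ℂ}, Bd μ c → MeanZeroL2 μ c := fun hc =>
    ⟨memLp_bdd hc.meas hc.bdd 2, hc.mean⟩
  have hVW : ∀ {c : X → ℂ}, Bd μ c → ∀ i, spec V c i =ᵐ[haar] W c i := fun {c} hc i => by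
    simp only [spec, V, dif_pos ((hW c (hz hc)).1 i).1]
    exact MemLp.coeFn_toLp _
  refine ⟨?_, fun i => ?_⟩
  · have e := (hW a (hz ha)).2 b (hz hb)
    rw [dotL2] at e
    rw [← e]
    refine Finset.sum_congr rfl fun i _ => ?_
    rw [L2.inner_def, dotL2]
    refine integral_congr_ae ?_
    filter_upwards [hVW ha i, hVW hb i] with x h1 h2
    rw [← h1, ← h2, RCLike.inner_apply]
  · filter_upwards [hVW (ha.comp hT) i, hVW ha i, ((hW a (hz ha)).1 i).2] with x h1 h2 h3
    rw [h1, h2, h3, fourier_one]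

variable {V : (X → ℂ) → Fin N → Lp ℂ 2 haar} {hT : MeasurePreserving T μ μ}

theorem spec_iter (hT : MeasurePreserving T μ μ) (hV : Rep V T μ) {a : X → ℂ} (ha : Bd μ a) (n : ℕ) (i : Fin N) :
    spec V (a ∘ T^[n]) i =ᵐ[haar] fun x => fourier (n : ℤ) x * spec V a i x := by
  induction n with
  | zero => exact Eventually.of_forall fun x => by simp [spec]
  | succ n ih =>
    have h := (hV _ _ (ha.iter hT n) (ha.iter hT n)).2 i
    rw [Function.comp_assoc, ← Function.iterate_succ] at h
    filter_upwards [h, ih] with x h1 h2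
    rw [show spec V (a ∘ T^[n + 1]) i x = fourier 1 x * spec V (a ∘ T^[n]) i x from h1, h2,
      ← mul_assoc, ← fourier_add, Nat.cast_succ, add_comm]

theorem integrable_term (G F : Lp ℂ 2 haar) :
    Integrable (fun x => (G : Circ → ℂ) x * conj ((F : Circ → ℂ) x)) haar := by
  have := L2.integrable_inner (𝕜 := ℂ) F G
  simpa [RCLike.inner_apply] using this

theorem integrable_pairD (a b : X → ℂ) : Integrable (pairD V a b) haar :=
  integrable_finsetSum _ fun _ _ => integrable_term _ _

theorem pairD_coeff (hT : MeasurePreserving T μ μ) (hV : Rep V T μ) {a b : X → ℂ} (ha : Bd μ a) (hb : Bd μ b) (n : ℕ) :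
    ∫ x, fourier (n : ℤ) x * pairD V a b x ∂haar = cor T μ a b n := by
  have han := ha.iter hT n
  have h := (hV _ _ han hb).1
  refine Eq.trans ?_ h
  simp only [pairD, Finset.mul_sum]
  rw [integral_finsetSum _ fun i _ => (integrable_term _ _).bdd_mul
    (fourier (n : ℤ)).continuous.aestronglyMeasurable
    (Eventually.of_forall (fourier (n : ℤ)).norm_coe_le_norm)]
  refine Finset.sum_congr rfl fun i _ => ?_
  rw [L2.inner_def]
  refine integral_congr_ae ?_
  filter_upwards [spec_iter hT hV ha n i] with x hx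
  rw [RCLike.inner_apply]
  change _ = spec V (a ∘ T^[n]) i x * _
  rw [hx]
  ring

theorem pairD_coeff_neg (hT : MeasurePreserving T μ μ) (hV : Rep V T μ) {a b : X → ℂ} (ha : Bd μ a) (hb : Bd μ b) (n : ℕ) :
    ∫ x, fourier (-(n : ℤ)) x * pairD V a b x ∂haar = conj (cor T μ b a n) := by
  rw [← pairD_coeff hT hV hb ha n, ← integral_conj]
  refine integral_congr_ae (Eventually.of_forall fun x => ?_)
  simp only [pairD, map_mul, map_sum, Complex.conj_conj, fourier_neg]
  congr 1
  exact Finset.sum_congr rfl fun i _ => mul_comm _ _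

theorem pairD_eq_zero (hT : MeasurePreserving T μ μ) (hV : Rep V T μ) {a b : X → ℂ} (ha : Bd μ a) (hb : Bd μ b)
    (h1 : ∀ n, cor T μ a b n = 0) (h2 : ∀ n, cor T μ b a n = 0) :
    pairD V a b =ᵐ[haar] 0 := by
  refine ae_eq_zero_of_fourier (integrable_pairD a b) fun n => ?_
  obtain ⟨m, rfl | rfl⟩ := n.eq_nat_or_neg
  · rw [pairD_coeff hT hV ha hb, h1]
  · rw [pairD_coeff_neg hT hV ha hb, h2, map_zero]

theorem dens_eq (a : X → ℂ) (x : Circ) : (dens V a x : ℂ) = pairD V a a x := by
  simp only [dens, pairD, Complex.ofReal_sum, Complex.mul_conj, Complex.normSq_eq_norm_sq]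

theorem dens_nonneg (a : X → ℂ) (x : Circ) : 0 ≤ dens V a x :=
  Finset.sum_nonneg fun _ _ => sq_nonneg _

theorem integrable_dens (a : X → ℂ) : Integrable (dens V a) haar := by
  have := (integrable_pairD (V := V) a a).re
  refine this.congr (Eventually.of_forall fun x => ?_)
  show RCLike.re (pairD V a a x) = dens V a x
  rw [← dens_eq]
  exact Complex.ofReal_re _

instance (a : X → ℂ) : IsFiniteMeasure (specM V a) :=
  isFiniteMeasure_withDensity_ofReal (integrable_dens a).hasFiniteIntegral

theorem integral_specM (a : X → ℂ) (φ : Circ → ℂ) :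
    ∫ x, φ x ∂(specM V a) = ∫ x, φ x * pairD V a a x ∂haar := by
  rw [specM, integral_withDensity_eq_integral_toReal_smul₀
    (integrable_dens a).aemeasurable.ennreal_ofReal
    (Eventually.of_forall fun _ => ENNReal.ofReal_lt_top)]
  refine integral_congr_ae (Eventually.of_forall fun x => ?_)
  simp only [ENNReal.toReal_ofReal (dens_nonneg a x), Complex.real_smul, dens_eq, mul_comm]

theorem specM_ne_zero (hT : MeasurePreserving T μ μ) (hV : Rep V T μ) {a : X → ℂ} (ha : Bd μ a) (h : cor T μ a a 0 ≠ 0) :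
    specM V a ≠ 0 := fun h0 => h <| by
  rw [← pairD_coeff hT hV ha ha 0, ← integral_specM, h0, integral_zero_measure]

theorem dens_pos_of_specM (a : X → ℂ) {P : Set Circ} (h : specM V a P ≠ 0) :
    haar (P ∩ {x | 0 < dens V a x}) ≠ 0 := by
  intro h0
  refine h ?_
  rw [specM, withDensity_apply' _ P, lintegral_eq_zero_iff'
    (integrable_dens a).aemeasurable.ennreal_ofReal.restrict]
  have hm : NullMeasurableSet {x | 0 < dens V a x} (haar.restrict P) :=
    nullMeasurableSet_lt aemeasurable_const (integrable_dens a).aemeasurable.restrict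
  have h1 : haar.restrict P {x | 0 < dens V a x} = 0 := by
    rw [Measure.restrict_apply₀ hm, inter_comm]
    exact h0
  filter_upwards [measure_eq_zero_iff_ae_notMem.1 h1] with x hx
  exact ENNReal.ofReal_eq_zero.2 (not_lt.1 hx)

/-- The spectral measure of a product with multiplicative correlations is a convolution. -/
theorem specM_mul (hT : MeasurePreserving T μ μ) (hV : Rep V T μ) {a b v : X → ℂ} (ha : Bd μ a) (hb : Bd μ b) (hv : Bd μ v)
    (h : ∀ n, cor T μ v v n = cor T μ a a n * cor T μ b b n) :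
    specM V v = Measure.map (fun z : Circ × Circ => z.1 + z.2) ((specM V a).prod (specM V b)) := by
  refine ext_fourier fun n => ?_
  rw [integral_map (φ := fun z : Circ × Circ => z.1 + z.2) (measurable_fst.add measurable_snd).aemeasurable
    (fourier n).continuous.aestronglyMeasurable]
  have e : (fun z : Circ × Circ => fourier n (z.1 + z.2)) =
      fun z => fourier n z.1 * fourier n z.2 := by
    funext z
    simp only [fourier_apply, smul_add, AddCircle.toCircle_add, Circle.coe_mul]
  rw [e, integral_prod_mul, integral_specM, integral_specM, integral_specM]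
  obtain ⟨m, rfl | rfl⟩ := n.eq_nat_or_neg
  · rw [pairD_coeff hT hV hv hv, pairD_coeff hT hV ha ha, pairD_coeff hT hV hb hb, h]
  · rw [pairD_coeff_neg hT hV hv hv, pairD_coeff_neg hT hV ha ha, pairD_coeff_neg hT hV hb hb, h, map_mul]

theorem specM_ac (a : X → ℂ) : specM V a ≪ haar := withDensity_absolutelyContinuous _ _

theorem norm_fourier (j : ℤ) (x : Circ) : ‖fourier j x‖ = 1 := by
  rw [fourier_apply]; exact Circle.norm_coe _

theorem haar_fourier_eq_one {j : ℤ} (hj : j ≠ 0) : haar {x : Circ | fourier j x = 1} = 0 := by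
  have h : {x : Circ | fourier j x = 1} ⊆ (fun x : Circ => j • x) ⁻¹' {0} := by
    intro x hx
    refine (AddCircle.injective_toCircle one_ne_zero) ?_
    rw [AddCircle.toCircle_zero]
    exact Subtype.ext (by simpa [fourier_apply] using hx)
  refine measure_mono_null h ?_
  rw [(Measure.measurePreserving_zsmul haar hj).measure_preimage
    (measurableSet_singleton _).nullMeasurableSet]
  exact haar_singleton _

/-- Only the trivial sets are invariant under a positive power of `T`. -/
theorem trivial_of_invariant (hT : MeasurePreserving T μ μ) (hV : Rep V T μ) {C : Set X} (hC : MeasurableSet C) {j : ℕ}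
    (hj : j ≠ 0) (h : μ (C \ T^[j] ⁻¹' C) = 0) : μ C = 0 ∨ μ C = 1 := by
  set c : ℂ := ((μ.real C : ℝ) : ℂ)
  set a : X → ℂ := fun x => C.indicator (fun _ => (1 : ℂ)) x - c with ha'
  have hi : Measurable (C.indicator fun _ => (1 : ℂ)) := measurable_const.indicator hC
  have ha : Bd μ a := by
    refine ⟨hi.sub measurable_const, ⟨1 + ‖c‖, fun x => (norm_sub_le _ _).trans ?_⟩, ?_⟩
    · refine add_le_add ((norm_indicator_le_norm_self _ x).trans ?_) le_rfl
      simp
    · rw [ha', integral_sub (int_bdd hi ⟨1, fun x => (norm_indicator_le_norm_self _ x).trans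
        (by simp)⟩) (integrable_const _), integral_indicator_const _ hC]
      simp [c]
  have hme := (hT.iterate j).measure_preimage hC.nullMeasurableSet
  have hset : C =ᵐ[μ] T^[j] ⁻¹' C :=
    ae_eq_of_ae_subset_of_measure_ge (ae_le_set.2 h) hme.le hC.nullMeasurableSet
      (measure_ne_top _ _)
  have hcor : cor T μ a a j = cor T μ a a 0 := by
    refine integral_congr_ae ?_
    filter_upwards [eventuallyEq_set.1 hset] with x hx
    simp only [Function.iterate_zero, id_eq, a]
    by_cases h1 : x ∈ C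
    · rw [indicator_of_mem h1, indicator_of_mem (show T^[j] x ∈ C from hx.1 h1)]
    · rw [indicator_of_notMem h1, indicator_of_notMem (fun h2 : T^[j] x ∈ C => h1 (hx.2 h2))]
  have hI : ∀ n : ℕ, ∫ x, fourier (n : ℤ) x ∂(specM V a) = cor T μ a a n := fun n => by
    rw [integral_specM, pairD_coeff hT hV ha ha]
  have h0 : ∫ x, (1 - (fourier (j : ℤ) x).re) ∂(specM V a) = 0 := by
    have e := hI j
    rw [hcor, ← hI 0] at e
    have e' := congrArg Complex.re e
    rw [← RCLike.re_eq_complex_re, ← integral_re (integrable_cont _ _),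
      ← integral_re (integrable_cont _ _)] at e'
    simp only [RCLike.re_eq_complex_re] at e'
    rw [integral_sub (integrable_const _) (by simpa using (integrable_cont (specM V a) (fourier (j : ℤ))).re)]
    simpa [sub_eq_zero] using e'.symm
  have hnn : ∀ x, 0 ≤ 1 - (fourier (j : ℤ) x).re := fun x => by
    have := (Complex.re_le_norm (fourier (j : ℤ) x))
    have h1 : ‖fourier (j : ℤ) x‖ = 1 := norm_fourier _ x
    linarith
  rw [integral_eq_zero_iff_of_nonneg hnn
    ((integrable_const _).sub (integrable_cont _ _).re)] at h0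
  have hsupp : ∀ᵐ x ∂(specM V a), x ∈ {x : Circ | fourier (j : ℤ) x = 1} := by
    filter_upwards [h0] with x hx
    have h1 : ‖fourier (j : ℤ) x‖ = 1 := norm_fourier _ x
    have hre : (fourier (j : ℤ) x).re = 1 := by simp only [Pi.zero_apply] at hx; linarith
    have him : (fourier (j : ℤ) x).im = 0 := by
      rw [Complex.norm_def, Real.sqrt_eq_one, Complex.normSq_apply, hre] at h1
      nlinarith
    exact Complex.ext (by rw [hre, Complex.one_re]) (by rw [him, Complex.one_im])
  have hzero : specM V a = 0 := by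
    rw [← Measure.measure_univ_eq_zero,
      ← measure_congr (eventuallyEq_univ.2 hsupp)]
    exact specM_ac a (haar_fourier_eq_one (by exact_mod_cast hj))
  have hn : ∫ x, (‖a x‖ ^ 2 : ℝ) ∂μ = 0 := by
    have e := hI 0
    rw [hzero, integral_zero_measure, cor] at e
    simp only [Function.iterate_zero, id_eq, Complex.mul_conj, Complex.normSq_eq_norm_sq,
      integral_complex_ofReal] at e
    exact_mod_cast e.symm
  rw [integral_eq_zero_iff_of_nonneg (fun x => sq_nonneg _)
    (((memLp_bdd ha.meas ha.bdd 2).integrable_norm_pow two_ne_zero))] at hn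
  have hc : ∀ᵐ x ∂μ, C.indicator (fun _ => (1 : ℂ)) x = c := by
    filter_upwards [hn] with x hx
    simpa [a, sub_eq_zero] using hx
  by_cases h1 : μ C = 0
  · exact Or.inl h1
  refine Or.inr ((mem_ae_iff_prob_eq_one hC).1 ?_)
  obtain ⟨x0, hx0, hx0c⟩ : ∃ x ∈ C, C.indicator (fun _ => (1 : ℂ)) x = c := by
    by_contra hne
    push Not at hne
    refine h1 (measure_eq_zero_iff_ae_notMem.2 ?_)
    filter_upwards [hc] with x hx h2 using hne x h2 hx
  rw [indicator_of_mem hx0] at hx0c
  filter_upwards [hc] with x hx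
  by_contra hxC
  rw [indicator_of_notMem hxC, ← hx0c] at hx
  exact one_ne_zero hx.symm

end

end Vale.Agent.P130
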