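import Vale.Agent.P130.Tower
import Vale.Agent.P130.Factors

/-!
The Koopman operator on the mean-zero square-integrable functions, and the level vectors of a
tower transformation.
-/

open MeasureTheory Filter Set
open scoped InnerProductSpace ComplexConjugate

noncomputable section

namespace Vale.Agent.P130.Koopman

variable {X : Type*} [MeasurableSpace X] (μ : Measure X) [IsProbabilityMeasure μ]

/-- The constant function one. -/
def one : Lp ℂ 2 μ := (memLp_const (1 : ℂ)).toLp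

/-- The mean-zero functions. -/
abbrev Zero : Submodule ℂ (Lp ℂ 2 μ) := (Submodule.span ℂ {one μ})ᗮ

lemma coeFn_one : (one μ : X → ℂ) =ᵐ[μ] fun _ => 1 := (memLp_const (1 : ℂ)).coeFn_toLp

lemma inner_eq_integral (f g : Lp ℂ 2 μ) :
    ⟪f, g⟫_ℂ = ∫ x, (g : X → ℂ) x * conj ((f : X → ℂ) x) ∂μ := by
  rw [MeasureTheory.L2.inner_def]
  simp only [RCLike.inner_apply]

lemma mem_zero {f : Lp ℂ 2 μ} : f ∈ Zero μ ↔ ∫ x, (f : X → ℂ) x ∂μ = 0 := by
  rw [Submodule.mem_orthogonal_singleton_iff_inner_right, inner_eq_integral]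
  refine Eq.congr_left (integral_congr_ae ?_)
  filter_upwards [coeFn_one μ] with x hx
  rw [hx, map_one, mul_one]

variable {μ} {T : X ≃ᵐ X} (hT : MeasurePreserving T μ μ)

include hT in
lemma measurePreserving_symm : MeasurePreserving T.symm μ μ := hT.symm T

/-- Composition with `T` on square-integrable functions. -/
def comp : Lp ℂ 2 μ ≃ₗᵢ[ℂ] Lp ℂ 2 μ :=
  { Lp.compMeasurePreservingₗᵢ ℂ T hT with
    invFun := fun f => Lp.compMeasurePreserving T.symm (measurePreserving_symm hT) f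
    left_inv := fun f => by
      refine Lp.ext ?_
      have h1 := Lp.coeFn_compMeasurePreserving (Lp.compMeasurePreserving T hT f)
        (measurePreserving_symm hT)
      have h2 := (measurePreserving_symm hT).quasiMeasurePreserving.ae_eq
        (Lp.coeFn_compMeasurePreserving f hT)
      refine h1.trans (h2.trans ?_)
      exact Eventually.of_forall fun x => by simp
    right_inv := fun f => by
      refine Lp.ext ?_
      have h1 := Lp.coeFn_compMeasurePreserving
        (Lp.compMeasurePreserving T.symm (measurePreserving_symm hT) f) hT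
      have h2 := hT.quasiMeasurePreserving.ae_eq
        (Lp.coeFn_compMeasurePreserving f (measurePreserving_symm hT))
      refine h1.trans (h2.trans ?_)
      exact Eventually.of_forall fun x => by simp }

lemma coeFn_comp (f : Lp ℂ 2 μ) : (comp hT f : X → ℂ) =ᵐ[μ] fun x => (f : X → ℂ) (T x) :=
  Lp.coeFn_compMeasurePreserving f hT

include hT in
lemma integral_comp_T (f : X → ℂ) : ∫ x, f (T x) ∂μ = ∫ x, f x ∂μ :=
  hT.integral_comp' f

lemma map_zero_eq : (Zero μ).map (comp hT).toLinearEquiv.toLinearMap = Zero μ := by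
  ext f
  rw [Submodule.mem_map_equiv, mem_zero, mem_zero]
  refine Eq.congr_left ?_
  conv_rhs => rw [← LinearEquiv.apply_symm_apply (comp hT).toLinearEquiv f]
  exact ((integral_congr_ae (coeFn_comp hT _)).trans (integral_comp_T hT _)).symm

/-- The Koopman operator on the mean-zero functions. -/
def op : Zero μ ≃ₗᵢ[ℂ] Zero μ :=
  ⟨(comp hT).toLinearEquiv.ofSubmodules _ _ (map_zero_eq hT), fun f => (comp hT).norm_map f⟩

lemma coe_op (f : Zero μ) : ((op hT f : Zero μ) : Lp ℂ 2 μ) = comp hT f := rfl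

lemma coeFn_op_symm (f : Zero μ) :
    (((op hT).symm f : Zero μ) : X → ℂ) =ᵐ[μ] fun x => ((f : Lp ℂ 2 μ) : X → ℂ) (T.symm x) := by
  have h := (coeFn_comp hT ((op hT).symm f : Zero μ))
  rw [← coe_op, LinearIsometryEquiv.apply_symm_apply] at h
  refine Filter.EventuallyEq.symm (((measurePreserving_symm hT).quasiMeasurePreserving.ae_eq h).trans
    (Eventually.of_forall fun x => ?_))
  simp

lemma coeFn_op_zpow (n : ℤ) (f : Zero μ) :
    ((((op hT) ^ n) f : Zero μ) : X → ℂ) =ᵐ[μ]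
      fun x => ((f : Lp ℂ 2 μ) : X → ℂ) ((T.toEquiv ^ n : Equiv.Perm X) x) := by
  induction n using Int.induction_on generalizing f with
  | zero => exact Eventually.of_forall fun x => rfl
  | succ k ih =>
    rw [zpow_add_one]
    refine (ih (op hT f)).trans ?_
    have hk : MeasurePreserving (⇑(T.toEquiv ^ (k : ℤ) : Equiv.Perm X)) μ μ := by
      rw [zpow_natCast, Equiv.Perm.coe_pow]; exact hT.iterate k
    refine (hk.quasiMeasurePreserving.ae_eq (coeFn_comp hT (f : Lp ℂ 2 μ))).trans ?_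
    refine Eventually.of_forall fun x => ?_
    show _ = ((f : Lp ℂ 2 μ) : X → ℂ) ((T.toEquiv ^ ((k : ℤ) + 1) : Equiv.Perm X) x)
    rw [show (k : ℤ) + 1 = 1 + k by ring, zpow_one_add, Equiv.Perm.mul_apply]
    rfl
  | pred k ih =>
    rw [zpow_sub_one]
    refine (ih ((op hT).symm f)).trans ?_
    have hk : MeasurePreserving (⇑(T.toEquiv ^ (-(k : ℤ)) : Equiv.Perm X)) μ μ := by
      rw [zpow_neg, ← inv_zpow, zpow_natCast, Equiv.Perm.coe_pow]
      exact (measurePreserving_symm hT).iterate k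
    refine (hk.quasiMeasurePreserving.ae_eq (coeFn_op_symm hT f)).trans ?_
    refine Eventually.of_forall fun x => ?_
    show _ = ((f : Lp ℂ 2 μ) : X → ℂ) ((T.toEquiv ^ (-(k : ℤ) - 1) : Equiv.Perm X) x)
    rw [show -(k : ℤ) - 1 = -1 + -(k : ℤ) by ring, zpow_add, Equiv.Perm.mul_apply, zpow_neg_one]
    rfl

/-- A unitary equivalence with the coordinate gives simple Lebesgue spectrum. -/
theorem simple_of_equiv (W : Zero μ ≃ₗᵢ[ℂ] Lp ℂ 2 haar)
    (hW : ∀ f, (W (op hT f) : Circ → ℂ) =ᵐ[haar] fun t => fourier 1 t * (W f : Circ → ℂ) t) :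
    SimpleLebesgueSpectrum T μ := by
  classical
  let emb : ∀ g, MeanZeroL2 μ g → Zero μ := fun g hg => ⟨hg.1.toLp, (mem_zero μ).2 (by
    rw [integral_congr_ae hg.1.coeFn_toLp]; exact hg.2)⟩
  let V : (X → ℂ) → Circ → ℂ := fun g => if hg : MeanZeroL2 μ g then (W (emb g hg) : Circ → ℂ) else 0
  refine ⟨V, fun g hg => ?_, fun F hF => ?_⟩
  · have hgT : MeanZeroL2 μ (g ∘ T) :=
      ⟨hg.1.comp_measurePreserving hT, (integral_comp_T hT g).trans hg.2⟩
    refine ⟨?_, ?_, fun h hh => ?_⟩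
    · simp only [V, dif_pos hg]; exact Lp.memLp _
    · have e : emb (g ∘ T) hgT = op hT (emb g hg) := by
        refine Subtype.ext (Lp.ext ?_)
        refine hgT.1.coeFn_toLp.trans ?_
        exact ((coeFn_comp hT _).trans (hT.quasiMeasurePreserving.ae_eq hg.1.coeFn_toLp)).symm
      simp only [V, dif_pos hg, dif_pos hgT, IsCoordMul, e]
      filter_upwards [hW (emb g hg)] with t ht
      rw [ht, fourier_one]
    · simp only [V, dif_pos hg, dif_pos hh, dotL2]
      rw [← inner_eq_integral, LinearIsometryEquiv.inner_map_map, Submodule.coe_inner,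
        inner_eq_integral]
      refine integral_congr_ae ?_
      filter_upwards [hg.1.coeFn_toLp, hh.1.coeFn_toLp] with x h1 h2
      show (hg.1.toLp : X → ℂ) x * conj ((hh.1.toLp : X → ℂ) x) = _
      rw [h1, h2]
  · set v := W.symm hF.toLp with hv
    have hg : MeanZeroL2 μ ((v : Lp ℂ 2 μ) : X → ℂ) := ⟨Lp.memLp _, (mem_zero μ).1 v.2⟩
    refine ⟨_, hg, ?_⟩
    have e : emb _ hg = v := Subtype.ext (Lp.toLp_coeFn (v : Lp ℂ 2 μ) (Lp.memLp _))
    rw [show V ((v : Lp ℂ 2 μ) : X → ℂ) = (W (emb _ hg) : Circ → ℂ) from dif_pos hg, e, hv,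
      LinearIsometryEquiv.apply_symm_apply]
    exact hF.coeFn_toLp

section TowerVectors

open Tower

variable (P : Sched)

lemma integrable_lev (n : ℕ) (ℓ : Fin (P.h n)) :
    MemLp ((P.Lev n ℓ).indicator fun _ => (1 : ℂ)) 2 (Tower.Sched.μ) :=
  memLp_indicator_const 2 (P.measurableSet_lev n ℓ) 1 (Or.inr (measure_ne_top _ _))

/-- The indicator of a level, less its mean. -/
def vec (n : ℕ) (ℓ : Fin (P.h n)) : Zero Tower.Sched.μ :=
  ⟨(integrable_lev P n ℓ).toLp - (P.w n : ℂ) • one _, by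
    rw [mem_zero, integral_congr_ae (Lp.coeFn_sub _ _)]
    have h2 : (((P.w n : ℂ) • one Tower.Sched.μ : Lp ℂ 2 Tower.Sched.μ) : ℝ → ℂ) =ᵐ[Tower.Sched.μ]
        fun _ => (P.w n : ℂ) := by
      filter_upwards [Lp.coeFn_smul (P.w n : ℂ) (one Tower.Sched.μ), coeFn_one Tower.Sched.μ]
        with x h h'
      rw [h, Pi.smul_apply, h', smul_eq_mul, mul_one]
    rw [integral_congr_ae ((integrable_lev P n ℓ).coeFn_toLp.sub h2)]
    simp only [Pi.sub_apply]
    rw [integral_sub ((integrable_lev P n ℓ).integrable one_le_two) (integrable_const _),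
      integral_indicator_const _ (P.measurableSet_lev n ℓ), integral_const]
    simp [Measure.real, P.μ_lev, ENNReal.toReal_ofReal (P.w_pos n).le]⟩

lemma coeFn_vec (n : ℕ) (ℓ : Fin (P.h n)) :
    ((vec P n ℓ : Lp ℂ 2 Tower.Sched.μ) : ℝ → ℂ) =ᵐ[Tower.Sched.μ]
      fun x => (P.Lev n ℓ).indicator (fun _ => (1 : ℂ)) x - (P.w n : ℂ) := by
  filter_upwards [Lp.coeFn_sub ((integrable_lev P n ℓ).toLp) ((P.w n : ℂ) • one Tower.Sched.μ),
    (integrable_lev P n ℓ).coeFn_toLp, Lp.coeFn_smul (P.w n : ℂ) (one Tower.Sched.μ),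
    coeFn_one Tower.Sched.μ] with x h1 h2 h3 h4
  rw [show ((vec P n ℓ : Lp ℂ 2 Tower.Sched.μ)) =
    (integrable_lev P n ℓ).toLp - (P.w n : ℂ) • one Tower.Sched.μ from rfl, h1, Pi.sub_apply, h2,
    h3, Pi.smul_apply, h4, smul_eq_mul, mul_one]

/-- The rank-one transformation in the orientation in which the Koopman operator climbs. -/
def S : ℝ ≃ᵐ ℝ := P.T.symm

lemma measurePreserving_S : MeasurePreserving (S P) Tower.Sched.μ Tower.Sched.μ :=
  P.measurePreserving_step (-1)

/-- The Koopman operator climbs the levels. -/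
lemma op_vec {n : ℕ} (ℓ : Fin (P.h n)) (i : ℕ) (h : (ℓ : ℕ) + i < P.h n) :
    ((op (measurePreserving_S P)) ^ (i : ℤ)) (vec P n ℓ) = vec P n ⟨(ℓ : ℕ) + i, h⟩ := by
  refine Subtype.ext (Lp.ext ?_)
  refine (coeFn_op_zpow _ _ _).trans ?_
  have e : ∀ x, ((S P).toEquiv ^ (i : ℤ) : Equiv.Perm ℝ) x = P.step (-(i : ℤ)) x := by
    intro x
    rw [show (S P).toEquiv = P.T.toEquiv⁻¹ from rfl, inv_zpow', P.T_zpow]
  simp only [e]
  refine ((P.measurePreserving_step (-(i : ℤ))).quasiMeasurePreserving.ae_eq (coeFn_vec P n ℓ)).trans ?_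
  have h0 : 0 ≤ ((⟨(ℓ : ℕ) + i, h⟩ : Fin (P.h n)) : ℤ) + -(i : ℤ) := by simp
  have h1 : ((⟨(ℓ : ℕ) + i, h⟩ : Fin (P.h n)) : ℤ) + -(i : ℤ) < P.h n := by
    have := ℓ.2; simp only; omega
  have hℓ : (⟨(((⟨(ℓ : ℕ) + i, h⟩ : Fin (P.h n)) : ℤ) + -(i : ℤ)).toNat, by omega⟩ : Fin (P.h n)) = ℓ :=
    Fin.ext (by simp)
  have key := P.indicator_step h0 h1
  rw [hℓ] at key
  filter_upwards [key, coeFn_vec P n ⟨(ℓ : ℕ) + i, h⟩] with x hx hx'
  rw [hx']
  simp only [Function.comp_apply, hx]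

lemma lev_eq_iUnion (n : ℕ) (i : Fin (P.h n)) :
    P.Lev n i = ⋃ j ∈ (Finset.univ : Finset (Fin (P.q n))),
      P.Lev (n + 1) ⟨P.a n j + i, P.copy_lt i.2 j.2⟩ := by
  ext t
  simp only [Finset.mem_univ, iUnion_true, mem_iUnion]
  refine ⟨fun h => P.exists_copy h, fun ⟨j, hj⟩ => ?_⟩
  simp only [Tower.Sched.Lev, P.pos_copy, mem_Ico] at hj ⊢
  have hw := P.w_pos (n + 1)
  have := P.w_succ n
  have h1 : ((j : ℕ) : ℝ) + 1 ≤ P.q n := by exact_mod_cast j.2
  have h2 : 0 ≤ ((j : ℕ) : ℝ) * P.w (n + 1) := by positivity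
  exact ⟨by linarith, by nlinarith⟩

/-- A level is the union of its copies. -/
lemma vec_eq_sum (n : ℕ) (i : Fin (P.h n)) :
    vec P n i = ∑ j : Fin (P.q n), vec P (n + 1) ⟨P.a n j + i, P.copy_lt i.2 j.2⟩ := by
  classical
  refine Subtype.ext (Lp.ext ?_)
  rw [AddSubmonoidClass.coe_finsetSum]
  refine (coeFn_vec P n i).trans (EventuallyEq.trans ?_ (Lp.coeFn_finsetSum _ _).symm)
  filter_upwards [eventually_all.2 fun j : Fin (P.q n) =>
    coeFn_vec P (n + 1) ⟨P.a n j + i, P.copy_lt i.2 j.2⟩] with x hx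
  simp only [Finset.sum_apply, hx, Finset.sum_sub_distrib, Finset.sum_const, Finset.card_univ,
    Fintype.card_fin, nsmul_eq_mul]
  rw [lev_eq_iUnion, Finset.indicator_biUnion_apply]
  · rw [← P.w_succ n]; push_cast; ring
  · intro a _ b _ hab
    refine P.disjoint_lev _ fun e => hab ?_
    have e2 := congrArg Fin.val e
    exact Fin.ext (P.copy_inj i.2 i.2 a.2 b.2 e2).2

lemma inner_vec (n : ℕ) (i k : Fin (P.h n)) :
    ⟪vec P n i, vec P n k⟫_ℂ = (if i = k then (P.w n : ℂ) else 0) - (P.w n : ℂ) * P.w n := by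
  rw [Submodule.coe_inner, inner_eq_integral]
  set f : Fin (P.h n) → ℝ → ℂ := fun l => (P.Lev n l).indicator fun _ => (1 : ℂ) with hf
  have hi : ∀ l, Integrable (f l) Tower.Sched.μ := fun l => (integrable_lev P n l).integrable one_le_two
  have hI : ∀ l, ∫ x, f l x ∂Tower.Sched.μ = (P.w n : ℂ) := fun l => by
    rw [hf, integral_indicator_const _ (P.measurableSet_lev n l)]
    simp [Measure.real, P.μ_lev, ENNReal.toReal_ofReal (P.w_pos n).le]
  have e : (fun x => ((vec P n k : Lp ℂ 2 Tower.Sched.μ) : ℝ → ℂ) x *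
      conj (((vec P n i : Lp ℂ 2 Tower.Sched.μ) : ℝ → ℂ) x)) =ᵐ[Tower.Sched.μ] fun x =>
      ((if i = k then f i x else 0) + (P.w n : ℂ) * P.w n) - (P.w n : ℂ) * (f k x + f i x) := by
    filter_upwards [coeFn_vec P n k, coeFn_vec P n i] with x hk hi'
    rw [hk, hi']
    have h1 : conj (f i x) = f i x := by simp only [hf, Set.indicator]; split_ifs <;> simp
    have h2 : f k x * f i x = if i = k then f i x else 0 := by
      simp only [hf, Set.indicator]
      split_ifs <;> simp_all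
      rename_i a b c
      exact c (P.lev_inj b a)
    rw [map_sub, Complex.conj_ofReal, h1, ← h2]
    ring
  rw [integral_congr_ae e]
  have hif : Integrable (fun x => if i = k then f i x else 0) Tower.Sched.μ := by
    split_ifs
    · exact hi i
    · exact integrable_zero _ _ _
  rw [integral_sub (hif.fun_add (integrable_const _)) (((hi k).fun_add (hi i)).const_mul _),
    integral_add hif (integrable_const _), integral_const_mul (P.w n : ℂ) (fun x => f k x + f i x),
    integral_add (hi k) (hi i), hI, hI, integral_const]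
  split_ifs <;> simp [hI] <;> ring

/-- The translates of the bottom levels span the mean-zero functions. -/
theorem total : (Submodule.span ℂ (range fun p : ℤ × ℕ =>
    ((op (measurePreserving_S P)) ^ p.1) (vec P p.2 ⟨0, P.h_pos' p.2⟩))).topologicalClosure = ⊤ := by
  rw [Submodule.topologicalClosure_eq_top_iff, Submodule.eq_bot_iff]
  intro g hg
  refine Subtype.ext (Lp.ext ?_)
  refine EventuallyEq.trans ?_ (Lp.coeFn_zero _ _ _).symm
  refine P.integral_lev_eq_zero ((Lp.memLp (g : Lp ℂ 2 Tower.Sched.μ)).integrable one_le_two) fun n ℓ => ?_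
  have h := (Submodule.mem_orthogonal _ _).1 hg _ (Submodule.subset_span ⟨((ℓ : ℕ), n), rfl⟩)
  have hl : 0 + (ℓ : ℕ) < P.h n := by rw [zero_add]; exact ℓ.2
  simp only at h
  rw [op_vec P ⟨0, P.h_pos' n⟩ (ℓ : ℕ) hl,
    show (⟨0 + (ℓ : ℕ), hl⟩ : Fin (P.h n)) = ℓ from Fin.ext (zero_add _),
    Submodule.coe_inner, inner_eq_integral] at h
  have e : (fun x => ((g : Lp ℂ 2 Tower.Sched.μ) : ℝ → ℂ) x *
      conj (((vec P n ℓ : Lp ℂ 2 Tower.Sched.μ) : ℝ → ℂ) x)) =ᵐ[Tower.Sched.μ] fun x =>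
      (P.Lev n ℓ).indicator ((g : Lp ℂ 2 Tower.Sched.μ) : ℝ → ℂ) x -
        (P.w n : ℂ) * ((g : Lp ℂ 2 Tower.Sched.μ) : ℝ → ℂ) x := by
    filter_upwards [coeFn_vec P n ℓ] with x hx
    rw [hx, map_sub, Complex.conj_ofReal]
    simp only [Set.indicator]
    split_ifs <;> simp <;> ring
  have hint := (Lp.memLp (g : Lp ℂ 2 Tower.Sched.μ)).integrable one_le_two
  rw [integral_congr_ae e, integral_sub (hint.indicator (P.measurableSet_lev n ℓ))
    (hint.const_mul _), integral_indicator (P.measurableSet_lev n ℓ), integral_const_mul,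
    (mem_zero _).1 g.2, mul_zero, sub_zero] at h
  exact h

end TowerVectors

end Vale.Agent.P130.Koopman
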