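import Vale.Agent.P130.Circle
import Mathlib.Analysis.InnerProductSpace.Projection.Submodule
import Mathlib.Analysis.Normed.Operator.Extend
import Mathlib.MeasureTheory.Function.L2Space

/-!
A unitary with a cyclic vector whose spectral measure has an almost everywhere positive density is
multiplication by the coordinate on `L²` of the circle; the coefficients of the spectral measure
are read from the powers of the unitary.
-/

open MeasureTheory Filter Finset
open scoped ComplexConjugate InnerProductSpace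

noncomputable section

namespace Vale.Agent.P130.Lebesgue

variable {H : Type*} [NormedAddCommGroup H] [InnerProductSpace ℂ H]

lemma zpow_apply (U : H ≃ₗᵢ[ℂ] H) (m n : ℤ) (x : H) :
    (U ^ m) ((U ^ n) x) = (U ^ (m + n)) x := by
  rw [zpow_add]; rfl

/-- The continuous functions inside `L²`, twisted by the root of a density. -/
theorem memLp_twist {w : Circ → ℝ} (hw : Integrable w haar) (g : C(Circ, ℂ)) :
    MemLp (fun t => g t * (√(w t) : ℂ)) 2 haar := by
  have hm : AEStronglyMeasurable (fun t => (√(w t) : ℂ)) haar :=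
    (Complex.continuous_ofReal.comp Real.continuous_sqrt).comp_aestronglyMeasurable
      hw.aestronglyMeasurable
  rw [memLp_two_iff_integrable_sq_norm (f := fun t => g t * (√(w t) : ℂ))
    (g.continuous.aestronglyMeasurable.mul hm)]
  refine (hw.norm.const_mul (‖g‖ ^ 2)).mono' ((g.continuous.aestronglyMeasurable.mul hm).norm.pow 2)
    (Eventually.of_forall fun t => ?_)
  rw [norm_pow, norm_norm, norm_mul, mul_pow, Complex.norm_real, Real.norm_eq_abs, sq_abs]
  refine mul_le_mul (pow_le_pow_left₀ (norm_nonneg _) (g.norm_coe_le_norm t) 2) ?_ (sq_nonneg _)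
    (sq_nonneg _)
  rcases le_total 0 (w t) with h | h
  · rw [Real.sq_sqrt h]; exact Real.le_norm_self _
  · rw [Real.sqrt_eq_zero_of_nonpos h]; simp

/-- The twisting map. -/
def twist {w : Circ → ℝ} (hw : Integrable w haar) : C(Circ, ℂ) →ₗ[ℂ] Lp ℂ 2 haar where
  toFun g := (memLp_twist hw g).toLp
  map_add' g g' := by
    rw [← MemLp.toLp_add, MemLp.toLp_eq_toLp_iff]
    exact Eventually.of_forall fun t => by simp [add_mul]
  map_smul' a g := by
    rw [RingHom.id_apply, ← MemLp.toLp_const_smul, MemLp.toLp_eq_toLp_iff]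
    exact Eventually.of_forall fun t => by simp [mul_assoc]

variable {w : Circ → ℝ} (hw : Integrable w haar)

theorem coeFn_twist (g : C(Circ, ℂ)) :
    (twist hw g : Circ → ℂ) =ᵐ[haar] fun t => g t * (√(w t) : ℂ) :=
  (memLp_twist hw g).coeFn_toLp

theorem inner_twist (hpos : ∀ᵐ t ∂haar, 0 < w t) (g g' : C(Circ, ℂ)) :
    ⟪twist hw g, twist hw g'⟫_ℂ = ∫ t, conj (g t) * g' t * (w t : ℂ) ∂haar := by
  rw [MeasureTheory.L2.inner_def]
  refine integral_congr_ae ?_
  filter_upwards [coeFn_twist hw g, coeFn_twist hw g', hpos] with t h1 h2 h3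
  rw [h1, h2, RCLike.inner_apply, map_mul, Complex.conj_ofReal]
  rw [show g' t * (√(w t) : ℂ) * (conj (g t) * (√(w t) : ℂ)) =
    conj (g t) * g' t * ((√(w t) * √(w t) : ℝ) : ℂ) by push_cast; ring,
    Real.mul_self_sqrt h3.le]

/-- The twisted translates of a function without zeros on a positive set are total. -/
theorem twist_total (hpos : ∀ᵐ t ∂haar, 0 < w t) (p : C(Circ, ℂ)) (hp : ∀ᵐ t ∂haar, p t ≠ 0) :
    (Submodule.span ℂ (Set.range fun n : ℤ => twist hw (fourier n * p))).topologicalClosure = ⊤ := by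
  rw [Submodule.topologicalClosure_eq_top_iff, Submodule.eq_bot_iff]
  intro y hy
  set F : Circ → ℂ := fun t => conj ((y : Circ → ℂ) t) * (p t * (√(w t) : ℂ))
  have hF : Integrable F haar := by
    have h2 := (memLp_twist hw p)
    exact (Lp.memLp y).star.integrable_mul h2
  have h0 : F =ᵐ[haar] 0 := by
    refine ae_eq_zero_of_fourier hF fun n => ?_
    have h := (Submodule.mem_orthogonal' _ _).1 hy _ (Submodule.subset_span ⟨n, rfl⟩)
    rw [MeasureTheory.L2.inner_def] at h
    refine Eq.trans (integral_congr_ae ?_) h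
    filter_upwards [coeFn_twist hw (fourier n * p)] with t ht
    rw [ht, RCLike.inner_apply]
    simp only [F, ContinuousMap.mul_apply]
    ring
  refine Lp.ext ?_
  filter_upwards [h0, hpos, hp, Lp.coeFn_zero ℂ 2 haar] with t h1 h2 h3 h4
  rw [h4]
  simpa [F, h3, (Real.sqrt_pos.2 h2).ne'] using h1

/-- Equal Gram matrices give equal norms of combinations. -/
theorem norm_comb {ι E F : Type*} [NormedAddCommGroup E] [InnerProductSpace ℂ E]
    [NormedAddCommGroup F] [InnerProductSpace ℂ F] {u : ι → E} {v : ι → F}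
    (h : ∀ i j, ⟪u i, u j⟫_ℂ = ⟪v i, v j⟫_ℂ) (c : ι →₀ ℂ) :
    ‖Finsupp.linearCombination ℂ u c‖ = ‖Finsupp.linearCombination ℂ v c‖ := by
  refine (pow_left_inj₀ (norm_nonneg _) (norm_nonneg _) two_ne_zero).1 ?_
  rw [← inner_self_eq_norm_sq (𝕜 := ℂ), ← inner_self_eq_norm_sq (𝕜 := ℂ)]
  congr 1
  simp only [Finsupp.linearCombination_apply, Finsupp.sum, sum_inner, inner_sum,
    inner_smul_left, inner_smul_right, h]

/-- Two total families with the same Gram matrix differ by a unitary. -/
theorem exists_unitary {ι E F : Type*} [NormedAddCommGroup E] [InnerProductSpace ℂ E]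
    [CompleteSpace E] [NormedAddCommGroup F] [InnerProductSpace ℂ F] [CompleteSpace F]
    (u : ι → E) (v : ι → F) (h : ∀ i j, ⟪u i, u j⟫_ℂ = ⟪v i, v j⟫_ℂ)
    (hu : (Submodule.span ℂ (Set.range u)).topologicalClosure = ⊤)
    (hv : (Submodule.span ℂ (Set.range v)).topologicalClosure = ⊤) :
    ∃ W : E ≃ₗᵢ[ℂ] F, ∀ i, W (u i) = v i := by
  set A := Finsupp.linearCombination ℂ u
  set B := Finsupp.linearCombination ℂ v
  have hn : ∀ c, ‖A c‖ = ‖B c‖ := norm_comb h
  have dA : DenseRange A := by
    have := (Submodule.dense_iff_topologicalClosure_eq_top).2 hu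
    rwa [← Finsupp.range_linearCombination] at this
  have dB : DenseRange B := by
    have := (Submodule.dense_iff_topologicalClosure_eq_top).2 hv
    rwa [← Finsupp.range_linearCombination] at this
  set S := B.extendOfNorm A
  set S' := A.extendOfNorm B
  have hS : ∀ c, S (A c) = B c :=
    LinearMap.extendOfNorm_eq dA ⟨1, fun c => by rw [one_mul, hn c]⟩
  have hS' : ∀ c, S' (B c) = A c :=
    LinearMap.extendOfNorm_eq dB ⟨1, fun c => by rw [one_mul, hn c]⟩
  have i1 : ∀ x, S' (S x) = x := congrFun (dA.equalizer (S'.continuous.comp S.continuous)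
    continuous_id (funext fun c => by simp [hS, hS']))
  have i2 : ∀ y, S (S' y) = y := congrFun (dB.equalizer (S.continuous.comp S'.continuous)
    continuous_id (funext fun c => by simp [hS, hS']))
  have hnorm : ∀ x, ‖S x‖ = ‖x‖ := congrFun (dA.equalizer (continuous_norm.comp S.continuous)
    continuous_norm (funext fun c => by simp [hS, hn]))
  refine ⟨LinearIsometryEquiv.mk
    { S.toLinearMap with invFun := S', left_inv := i1, right_inv := i2 } hnorm, fun i => ?_⟩
  show S (u i) = v i
  have := hS (Finsupp.single i 1)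
  simpa [A, B, Finsupp.linearCombination_single] using this

/-- The Gram matrix of an orbit is read from the Fourier coefficients of the density. -/
theorem gram (U : H ≃ₗᵢ[ℂ] H) (f : H) (hpos : ∀ᵐ t ∂haar, 0 < w t)
    (hf : ∀ n : ℤ, ⟪f, (U ^ n) f⟫_ℂ = ∫ t, fourier n t * (w t : ℂ) ∂haar) (i j : ℤ) :
    ⟪(U ^ i) f, (U ^ j) f⟫_ℂ = ⟪twist hw (fourier i), twist hw (fourier j)⟫_ℂ := by
  have h1 : ⟪(U ^ i) f, (U ^ j) f⟫_ℂ = ⟪f, (U ^ (j - i)) f⟫_ℂ := by
    conv_lhs => rw [show j = i + (j - i) by ring, ← zpow_apply]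
    rw [LinearIsometryEquiv.inner_map_map]
  rw [h1, hf, inner_twist hw hpos]
  refine integral_congr_ae (Eventually.of_forall fun t => ?_)
  show fourier (j - i) t * (w t : ℂ) = _
  rw [show j - i = -i + j by ring, fourier_add, fourier_neg]

theorem memLp_coord (y : Lp ℂ 2 haar) :
    MemLp (fun t => fourier 1 t * (y : Circ → ℂ) t) 2 haar :=
  (Lp.memLp y).of_le
    ((fourier 1).continuous.aestronglyMeasurable.mul (Lp.aestronglyMeasurable y))
    (Eventually.of_forall fun t => by rw [norm_mul, show ‖fourier 1 t‖ = 1 from Circle.norm_coe _, one_mul])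

/-- Multiplication by the coordinate. -/
def mulZ : Lp ℂ 2 haar →L[ℂ] Lp ℂ 2 haar :=
  LinearMap.mkContinuous
    { toFun := fun y => (memLp_coord y).toLp
      map_add' := fun x y => by
        rw [← MemLp.toLp_add, MemLp.toLp_eq_toLp_iff]
        filter_upwards [Lp.coeFn_add x y] with t ht
        simp only [ht, Pi.add_apply, mul_add]
      map_smul' := fun a x => by
        rw [RingHom.id_apply, ← MemLp.toLp_const_smul, MemLp.toLp_eq_toLp_iff]
        filter_upwards [Lp.coeFn_smul a x] with t ht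
        simp [ht, mul_left_comm] }
    1 fun y => by
      refine le_of_eq ?_
      rw [one_mul, Lp.norm_def, Lp.norm_def]
      congr 1
      refine eLpNorm_congr_norm_ae ?_
      filter_upwards [(memLp_coord y).coeFn_toLp] with t ht
      show ‖((memLp_coord y).toLp : Circ → ℂ) t‖ = _
      rw [ht, norm_mul, show ‖fourier 1 t‖ = 1 from Circle.norm_coe _, one_mul]

/-- **A cyclic vector with an a.e. positive density**: simple Lebesgue spectrum. -/
theorem exists_equiv [CompleteSpace H] (U : H ≃ₗᵢ[ℂ] H) (f : H) (hpos : ∀ᵐ t ∂haar, 0 < w t)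
    (hf : ∀ n : ℤ, ⟪f, (U ^ n) f⟫_ℂ = ∫ t, fourier n t * (w t : ℂ) ∂haar)
    (hcyc : (Submodule.span ℂ (Set.range fun n : ℤ => (U ^ n) f)).topologicalClosure = ⊤)
    (hw : Integrable w haar) :
    ∃ W : H ≃ₗᵢ[ℂ] Lp ℂ 2 haar, ∀ x, (W (U x) : Circ → ℂ) =ᵐ[haar]
      fun t => fourier 1 t * (W x : Circ → ℂ) t := by
  have htot := twist_total hw hpos 1 (Eventually.of_forall fun t => one_ne_zero)
  simp only [mul_one] at htot
  obtain ⟨W, hW⟩ := exists_unitary _ _ (gram hw U f hpos hf) hcyc htot
  refine ⟨W, fun x => ?_⟩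
  let L : H →L[ℂ] Lp ℂ 2 haar :=
    W.toContinuousLinearEquiv.toContinuousLinearMap.comp
      U.toContinuousLinearEquiv.toContinuousLinearMap
  let R : H →L[ℂ] Lp ℂ 2 haar := mulZ.comp W.toContinuousLinearEquiv.toContinuousLinearMap
  have hLR : L = R := ContinuousLinearMap.ext_on
    ((Submodule.dense_iff_topologicalClosure_eq_top).2 hcyc) fun _ ⟨n, hn⟩ => by
      subst hn
      show W (U ((U ^ n) f)) = mulZ (W ((U ^ n) f))
      have e1 : U ((U ^ n) f) = (U ^ (1 + n)) f := by
        rw [← zpow_apply, zpow_one]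
      rw [e1, hW (1 + n), hW n]
      refine Lp.ext ?_
      filter_upwards [coeFn_twist hw (fourier (1 + n)), coeFn_twist hw (fourier n),
        (memLp_coord (twist hw (fourier n))).coeFn_toLp] with t h1 h2 h3
      refine h1.trans (Eq.trans ?_ h3.symm)
      rw [h2, fourier_add, mul_assoc]
  rw [show W (U x) = mulZ (W x) from DFunLike.congr_fun hLR x]
  exact (memLp_coord (W x)).coeFn_toLp

include hw in
/-- If `f = p(U) v`, `p ≠ 0` a.e. and `v` has an a.e. positive density, then `v` lies in the cyclic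
space of `f`. -/
theorem mem_cyclic (U : H ≃ₗᵢ[ℂ] H) (f v : H) (hpos : ∀ᵐ t ∂haar, 0 < w t)
    (hv : ∀ n : ℤ, ⟪v, (U ^ n) v⟫_ℂ = ∫ t, fourier n t * (w t : ℂ) ∂haar)
    (s : Finset ℤ) (c : ℤ → ℂ) (hf : f = ∑ i ∈ s, c i • (U ^ i) v)
    (hp : ∀ᵐ t ∂haar, ∑ i ∈ s, c i * fourier i t ≠ 0) :
    v ∈ (Submodule.span ℂ (Set.range fun n : ℤ => (U ^ n) f)).topologicalClosure := by
  set A := Finsupp.linearCombination ℂ fun n : ℤ => (U ^ n) v
  set B := Finsupp.linearCombination ℂ fun n : ℤ => twist hw (fourier n)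
  set τ : ℤ → (ℤ →₀ ℂ) := fun n => ∑ i ∈ s, c i • Finsupp.single (n + i) 1
  set p : C(Circ, ℂ) := ∑ i ∈ s, c i • fourier i
  have hA : ∀ n, A (τ n) = (U ^ n) f := fun n => by
    simp only [A, τ, map_sum, map_smul, Finsupp.linearCombination_single, one_smul, hf,
      zpow_apply]
  have hB : ∀ n, B (τ n) = twist hw (fourier n * p) := fun n => by
    simp only [B, τ, map_sum, map_smul, Finsupp.linearCombination_single, one_smul, p,
      mul_sum, mul_smul_comm]
    refine sum_congr rfl fun i _ => ?_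
    congr 2
    ext t
    simp
  have htot := twist_total hw hpos p (by
    filter_upwards [hp] with t ht
    simpa [p] using ht)
  have hmem : B (Finsupp.single 0 1) ∈
      closure ((Submodule.span ℂ (Set.range fun n : ℤ => twist hw (fourier n * p)) : Set _)) := by
    rw [← Submodule.topologicalClosure_coe, htot]; trivial
  rw [← SetLike.mem_coe, Submodule.topologicalClosure_coe, Metric.mem_closure_iff]
  intro ε hε
  obtain ⟨y, hy, hd⟩ := Metric.mem_closure_iff.1 hmem ε hε
  have himg : ∀ y ∈ Submodule.span ℂ (Set.range fun n : ℤ => twist hw (fourier n * p)),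
      ∃ z ∈ Submodule.span ℂ (Set.range τ), B z = y := by
    intro y hy
    induction hy using Submodule.span_induction with
    | mem y hy => obtain ⟨n, rfl⟩ := hy; exact ⟨τ n, Submodule.subset_span ⟨n, rfl⟩, hB n⟩
    | zero => exact ⟨0, zero_mem _, map_zero _⟩
    | add a b _ _ ha hb =>
      obtain ⟨za, ha1, ha2⟩ := ha
      obtain ⟨zb, hb1, hb2⟩ := hb
      exact ⟨za + zb, add_mem ha1 hb1, by rw [map_add, ha2, hb2]⟩
    | smul a b _ hb =>
      obtain ⟨zb, hb1, hb2⟩ := hb
      exact ⟨a • zb, Submodule.smul_mem _ a hb1, by rw [map_smul, hb2]⟩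
  obtain ⟨z, hz, rfl⟩ := himg y hy
  refine ⟨A z, ?_, ?_⟩
  · have : Submodule.span ℂ (Set.range τ) ≤
        (Submodule.span ℂ (Set.range fun n : ℤ => (U ^ n) f)).comap A :=
      Submodule.span_le.2 (Set.range_subset_iff.2 fun n => by
        simp only [SetLike.mem_coe, Submodule.mem_comap, hA]
        exact Submodule.subset_span ⟨n, rfl⟩)
    exact this hz
  · have e : A (Finsupp.single 0 1) = v := by simp [A]
    rw [← e, dist_eq_norm, ← map_sub, norm_comb (gram hw U v hpos hv), map_sub, ← dist_eq_norm]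
    exact hd

end Vale.Agent.P130.Lebesgue
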