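import Vale.Agent.P130.Factors

/-!
Towers inside an invariant sigma-algebra and the bound on the number of independent factors.
-/

open MeasureTheory Filter Set ProbabilityTheory
open scoped ENNReal Topology ComplexConjugate

namespace Vale.Agent.P130

noncomputable section

set_option linter.unusedSectionVars false

variable {X : Type*} {𝔸 mX : MeasurableSpace X} {μ : Measure X} [IsProbabilityMeasure μ] {T : X → X}
  {N : ℕ} {V : (X → ℂ) → Fin N → Lp ℂ 2 haar}

theorem measurable_iterate (hinv : MeasurableSpace.comap T 𝔸 ≤ 𝔸) (n : ℕ) :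
    @Measurable X X 𝔸 𝔸 T^[n] :=
  (measurable_iff_comap_le.2 hinv).iterate n

/-- Sets of positive measure disjoint from many of their preimages. -/
theorem exists_spread (h𝔸 : 𝔸 ≤ mX) (hinv : MeasurableSpace.comap T 𝔸 ≤ 𝔸)
    (hT : MeasurePreserving T μ μ) (hV : Rep V T μ) {s : Set X} (hs : MeasurableSet[𝔸] s) (h0 : 0 < μ s) (h1 : μ s < 1) (J : ℕ) :
    ∃ C, MeasurableSet[𝔸] C ∧ 0 < μ C ∧ μ C < 1 ∧
      ∀ j, 1 ≤ j → j ≤ J → μ (C ∩ T^[j] ⁻¹' C) = 0 := by
  induction J with
  | zero => exact ⟨s, hs, h0, h1, fun j hj hj' => by omega⟩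
  | succ J ih =>
    obtain ⟨C, hC, hC0, hC1, hJ⟩ := ih
    refine ⟨C \ T^[J + 1] ⁻¹' C, hC.diff (measurable_iterate hinv _ hC),
      pos_iff_ne_zero.2 fun h => ?_, (measure_mono sdiff_subset).trans_lt hC1, fun j hj hj' => ?_⟩
    · rcases trivial_of_invariant hT hV (h𝔸 _ hC) (Nat.succ_ne_zero J) h with e | e
      · exact hC0.ne' e
      · exact hC1.ne e
    · rcases Nat.lt_or_ge J j with hlt | hge
      · obtain rfl : j = J + 1 := by omega
        exact measure_mono_null (fun x hx => hx.1.2 hx.2.1) measure_empty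
      · exact measure_mono_null (inter_subset_inter sdiff_subset (preimage_mono sdiff_subset))
          (hJ j hj hge)

/-- A function of an invariant sigma-algebra with spectral mass in a given open arc. -/
theorem exists_mass (h𝔸 : 𝔸 ≤ mX) (hinv : MeasurableSpace.comap T 𝔸 ≤ 𝔸)
    (hT : MeasurePreserving T μ μ) (hV : Rep V T μ) {s : Set X} (hs : MeasurableSet[𝔸] s) (h0 : 0 < μ s) (h1 : μ s < 1)
    {O : Set Circ} (hO : IsOpen O) {y0 : Circ} (hy0 : y0 ∈ O) :
    ∃ h : X → ℂ, Bd μ h ∧ Measurable[𝔸] h ∧ cor T μ h h 0 ≠ 0 ∧ specM V h O ≠ 0 := by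
  set w : ℂ := conj (fourier (1 : ℤ) y0) with hw
  have hwn : ‖w‖ = 1 := by rw [hw, RCLike.norm_conj, norm_fourier]
  -- a gap on the complement of the arc
  obtain ⟨δ, hδ, hgap⟩ : ∃ δ : ℝ, 0 < δ ∧ ∀ x, x ∉ O → (w * fourier (1 : ℤ) x).re ≤ 1 - δ := by
    have hlt : ∀ x, x ∉ O → (w * fourier (1 : ℤ) x).re < 1 := by
      intro x hx
      have hn : ‖w * fourier (1 : ℤ) x‖ = 1 := by rw [norm_mul, hwn, norm_fourier, mul_one]
      refine lt_of_le_of_ne ((Complex.re_le_norm _).trans hn.le) fun he => hx ?_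
      have him : (w * fourier (1 : ℤ) x).im = 0 := by
        rw [Complex.norm_def, Real.sqrt_eq_one, Complex.normSq_apply, he] at hn
        nlinarith
      have he1 : w * fourier (1 : ℤ) x = 1 :=
        Complex.ext (by rw [he, Complex.one_re]) (by rw [him, Complex.one_im])
      have : fourier (1 : ℤ) x = fourier (1 : ℤ) y0 := by
        have h' : fourier (1 : ℤ) y0 * (w * fourier (1 : ℤ) x) = fourier (1 : ℤ) y0 := by
          rw [he1, mul_one]
        rwa [← mul_assoc, hw, Complex.mul_conj, Complex.normSq_eq_norm_sq, norm_fourier, one_pow,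
          Complex.ofReal_one, one_mul] at h'
      rw [fourier_one, fourier_one] at this
      rwa [AddCircle.injective_toCircle one_ne_zero (Subtype.ext this)]
    rcases (Oᶜ).eq_empty_or_nonempty with he | hne
    · exact ⟨1, one_pos, fun x hx => absurd (he ▸ hx : x ∈ (∅ : Set Circ)) (notMem_empty x)⟩
    · obtain ⟨x1, hx1, hmax⟩ := hO.isClosed_compl.isCompact.exists_isMaxOn hne
        (f := fun x => (w * fourier (1 : ℤ) x).re)
        (Complex.continuous_re.comp (continuous_const.mul (fourier 1).continuous)).continuousOn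
      exact ⟨1 - (w * fourier (1 : ℤ) x1).re, by linarith [hlt x1 hx1],
        fun x hx => by have := hmax hx; simp only [mem_ofPred_eq] at this; linarith⟩
  obtain ⟨M, hM'⟩ := exists_nat_gt (4 / δ + 4)
  have hM : 4 / δ < (M : ℝ) := by linarith
  have hM4 : (4 : ℝ) ≤ M := by linarith [div_pos (by norm_num : (0 : ℝ) < 4) hδ]
  have hMpos : (0 : ℝ) < M := lt_trans (by positivity) hM
  have hM1 : 1 ≤ M := Nat.one_le_iff_ne_zero.2 fun e => by simp [e] at hMpos
  have hMδ : 4 < δ * M := by rw [div_lt_iff₀ hδ] at hM; linarith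
  obtain ⟨C, hC, hC0, hC1, hdis⟩ := exists_spread h𝔸 hinv hT hV hs h0 h1 (M * M)
  set c : ℝ := μ.real C with hc
  have hcpos : 0 < c := ENNReal.toReal_pos hC0.ne' (measure_ne_top _ _)
  set Ci : ℕ → Set X := fun i => T^[i] ⁻¹' C with hCi
  have hCim : ∀ i, MeasurableSet[𝔸] (Ci i) := fun i => measurable_iterate hinv i hC
  have hCiμ : ∀ i, μ.real (Ci i) = c := fun i =>
    congrArg ENNReal.toReal ((hT.iterate i).measure_preimage (h𝔸 _ hC).nullMeasurableSet)
  have hpair : ∀ i j, i ≠ j → i ≤ M * M → j ≤ M * M → μ (Ci i ∩ Ci j) = 0 := by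
    intro i j hij hi hj
    wlog h : i < j generalizing i j with H
    · rw [inter_comm]; exact H j i hij.symm hj hi (by omega)
    obtain ⟨d, rfl⟩ := Nat.exists_eq_add_of_lt h
    have e : Ci i ∩ Ci (i + d + 1) = T^[i] ⁻¹' (C ∩ T^[d + 1] ⁻¹' C) := by
      ext x
      simp only [Ci, mem_inter_iff, mem_preimage]
      rw [← Function.iterate_add_apply, show d + 1 + i = i + d + 1 by omega]
    rw [e, (hT.iterate i).measure_preimage ((h𝔸 _ hC).inter
      (h𝔸 _ (measurable_iterate hinv _ hC))).nullMeasurableSet]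
    exact hdis _ (by omega) (by omega)
  have hpack : (M * M : ℝ) * c ≤ 1 := by
    have h := measureReal_biUnion_finset₀ (μ := μ) (s := Finset.range (M * M)) (f := Ci)
      (fun i hi j hj hij => hpair i j hij (Finset.mem_range.1 hi).le (Finset.mem_range.1 hj).le)
      (fun i _ => (h𝔸 _ (hCim i)).nullMeasurableSet)
    rw [Finset.sum_congr rfl fun i _ => hCiμ i, Finset.sum_const, Finset.card_range,
      nsmul_eq_mul, Nat.cast_mul] at h
    rw [← h]
    exact measureReal_le_one
  set ind : ℕ → X → ℂ := fun i => (Ci i).indicator fun _ => 1 with hind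
  have hindm : ∀ i, Measurable[𝔸] (ind i) := fun i => measurable_const.indicator (hCim i)
  have hindb : ∀ i x, ‖ind i x‖ ≤ 1 := fun i x =>
    (norm_indicator_le_norm_self _ x).trans (by simp)
  have hindI : ∀ i, Integrable (ind i) μ := fun i =>
    int_bdd ((hindm i).mono h𝔸 le_rfl) ⟨1, hindb i⟩
  have hindint : ∀ i, ∫ x, ind i x ∂μ = c := fun i => by
    rw [hind, integral_indicator_const _ (h𝔸 _ (hCim i)), hCiμ]; simp
  have hprodI : ∀ i l, Integrable (fun x => ind i x * conj (ind l x)) μ := fun i l =>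
    (hindI i).mul_bdd
      (Complex.continuous_conj.comp_aestronglyMeasurable (hindI l).aestronglyMeasurable)
      (c := 1) (Eventually.of_forall fun x => by simpa using hindb l x)
  have hprod : ∀ i l, i ≤ M → l ≤ M →
      ∫ x, ind i x * conj (ind l x) ∂μ = if i = l then (c : ℂ) else 0 := by
    intro i l hi hl
    have e : ∀ x, ind i x * conj (ind l x) = (Ci i ∩ Ci l).indicator (fun _ => (1 : ℂ)) x := by
      intro x
      simp only [ind]
      by_cases h1 : x ∈ Ci i <;> by_cases h2 : x ∈ Ci l <;> simp [h1, h2]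
    simp only [e]
    rw [integral_indicator_const _ ((h𝔸 _ (hCim i)).inter (h𝔸 _ (hCim l)))]
    split_ifs with h
    · subst h; rw [inter_self, hCiμ]; simp
    · have hMM : M ≤ M * M := Nat.le_mul_self M
      rw [measureReal_def, hpair i l h (hi.trans hMM) (hl.trans hMM)]; simp
  set h0f : X → ℂ := fun x => ∑ i ∈ Finset.range M, w ^ i * ind i x with hh0
  have hh0m : Measurable[𝔸] h0f := Finset.measurable_sum _ fun i _ => (hindm i).const_mul _
  have hh0b : ∀ x, ‖h0f x‖ ≤ M := fun x => by
    refine (norm_sum_le _ _).trans ((Finset.sum_le_sum fun i _ => ?_).trans_eq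
      (by simp : ∑ _i ∈ Finset.range M, (1 : ℝ) = M))
    rw [norm_mul, norm_pow, hwn, one_pow, one_mul]
    exact hindb i x
  set m : ℂ := ∫ x, h0f x ∂μ with hm
  set h : X → ℂ := fun x => h0f x - m with hh
  have hh0I : Integrable h0f μ := int_bdd (hh0m.mono h𝔸 le_rfl) ⟨M, hh0b⟩
  have hhm : Measurable[𝔸] h := hh0m.sub measurable_const
  have hBd : Bd μ h := ⟨hhm.mono h𝔸 le_rfl,
    ⟨M + ‖m‖, fun x => (norm_sub_le _ _).trans (add_le_add (hh0b x) le_rfl)⟩, by
    rw [hh, integral_sub hh0I (integrable_const _)]; simp [m]⟩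
  have hmb : ‖m‖ ≤ M * c := by
    rw [hm, hh0, integral_finsetSum _ fun i _ => (hindI i).const_mul _]
    refine (norm_sum_le _ _).trans ((Finset.sum_le_sum fun i _ => ?_).trans_eq
      (by simp : ∑ _i ∈ Finset.range M, c = M * c))
    rw [integral_const_mul, hindint, norm_mul, norm_pow, hwn, one_pow, one_mul,
      Complex.norm_real, Real.norm_of_nonneg hcpos.le]
  -- correlations of the tower function
  have hcor : ∀ n : ℕ, n ≤ 1 → cor T μ h h n =
      (∑ i ∈ Finset.range M, ∑ l ∈ Finset.range M,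
        w ^ i * conj (w ^ l) * (if i + n = l then (c : ℂ) else 0)) - (Complex.normSq m : ℂ) := by
    intro n hn
    have hshift : ∀ i x, ind i (T^[n] x) = ind (i + n) x := fun i x => by
      have e : (T^[n] x ∈ Ci i) ↔ x ∈ Ci (i + n) := by
        simp only [Ci, mem_preimage, Function.iterate_add_apply]
      classical
      simp only [ind, indicator_apply]
      exact if_congr e rfl rfl
    have hIn : Integrable (fun x => h0f (T^[n] x)) μ := int_bdd
      ((hh0m.mono h𝔸 le_rfl).comp (hT.iterate n).measurable) ⟨M, fun x => hh0b _⟩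
    have hIc : Integrable (fun x => h0f (T^[n] x) * conj (h0f x)) μ :=
      hIn.mul_bdd (Complex.continuous_conj.comp_aestronglyMeasurable hh0I.aestronglyMeasurable)
        (c := (M : ℝ)) (Eventually.of_forall fun x => by simpa using hh0b x)
    have hmn : ∫ x, h0f (T^[n] x) ∂μ = m := by
      have := integral_map (hT.iterate n).measurable.aemeasurable (f := h0f) (μ := μ)
        (hh0m.mono h𝔸 le_rfl).aestronglyMeasurable
      rw [(hT.iterate n).map_eq] at this
      exact this.symm
    have hI3 : Integrable (fun x => m * conj (h0f x)) μ :=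
      ((Complex.conjCLE.toContinuousLinearMap.integrable_comp hh0I)).const_mul m
    have e0 : cor T μ h h n = (∫ x, h0f (T^[n] x) * conj (h0f x) ∂μ) - (Complex.normSq m : ℂ) := by
      have e : ∀ x, h (T^[n] x) * conj (h x) = h0f (T^[n] x) * conj (h0f x) -
          m * conj (h0f x) - h0f (T^[n] x) * conj m + m * conj m := fun x => by
        simp only [h, map_sub]; ring
      simp only [cor, e]
      have hI4 : Integrable (fun x => h0f (T^[n] x) * conj m) μ := hIn.mul_const _
      have hI5 : Integrable (fun x => h0f (T^[n] x) * conj (h0f x) - m * conj (h0f x)) μ :=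
        hIc.sub hI3
      have hI6 : Integrable (fun x => h0f (T^[n] x) * conj (h0f x) - m * conj (h0f x) -
          h0f (T^[n] x) * conj m) μ := hI5.sub hI4
      rw [integral_add hI6 (integrable_const _),
        integral_sub hI5 hI4, integral_sub hIc hI3, integral_const_mul,
        integral_conj, integral_mul_const, hmn, integral_const, ← Complex.mul_conj, probReal_univ,
        one_smul, ← hm]
      ring
    rw [e0]
    congr 1
    have e2 : ∀ x, h0f (T^[n] x) * conj (h0f x) = ∑ i ∈ Finset.range M, ∑ l ∈ Finset.range M,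
        w ^ i * conj (w ^ l) * (ind (i + n) x * conj (ind l x)) := fun x => by
      simp only [h0f, map_sum, map_mul, Finset.sum_mul_sum, hshift]
      exact Finset.sum_congr rfl fun i _ => Finset.sum_congr rfl fun l _ => by ring
    simp only [e2]
    rw [integral_finsetSum _ fun i _ => integrable_finsetSum _ fun l _ => (hprodI _ _).const_mul _]
    refine Finset.sum_congr rfl fun i hi => ?_
    rw [integral_finsetSum _ fun l _ => (hprodI _ _).const_mul _]
    refine Finset.sum_congr rfl fun l hl => ?_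
    rw [integral_const_mul, hprod _ _ (by have := Finset.mem_range.1 hi; omega)
      (Finset.mem_range.1 hl).le]
  have hww : ∀ i : ℕ, w ^ i * conj (w ^ i) = 1 := fun i => by
    rw [Complex.mul_conj, Complex.normSq_eq_norm_sq, norm_pow, hwn]; simp
  have hc0 : cor T μ h h 0 = ((M * c - Complex.normSq m : ℝ) : ℂ) := by
    rw [hcor 0 zero_le_one, Finset.sum_congr rfl fun i hi => (Finset.sum_eq_single_of_mem i hi
      fun l _ hl => by rw [if_neg (by simpa using hl.symm), mul_zero])]
    simp only [add_zero, if_true, hww, one_mul, Finset.sum_const, Finset.card_range, nsmul_eq_mul]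
    push_cast
    ring
  have hwc : w * conj w = 1 := by simpa using hww 1
  have hc1 : w * cor T μ h h 1 = ((M : ℂ) - 1) * c - w * Complex.normSq m := by
    rw [hcor 1 le_rfl, mul_sub]
    congr 1
    obtain ⟨M', rfl⟩ : ∃ M', M = M' + 1 := ⟨M - 1, by omega⟩
    have hin : ∀ i ∈ Finset.range (M' + 1), (∑ l ∈ Finset.range (M' + 1),
        w ^ i * conj (w ^ l) * (if i + 1 = l then (c : ℂ) else 0)) =
          if i < M' then conj w * c else 0 := by
      intro i hi
      by_cases hiM : i < M'
      · rw [if_pos hiM, Finset.sum_eq_single_of_mem (i + 1) (Finset.mem_range.2 (by omega))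
          fun l _ hl => by rw [if_neg (Ne.symm hl), mul_zero], if_pos rfl, pow_succ, map_mul,
          ← mul_assoc, hww, one_mul]
      · rw [if_neg hiM]
        refine Finset.sum_eq_zero fun l hl => ?_
        rw [if_neg (by have := Finset.mem_range.1 hl; omega), mul_zero]
    rw [Finset.sum_congr rfl hin, Finset.sum_range_succ, if_neg (lt_irrefl _), add_zero,
      Finset.sum_congr rfl fun i hi => if_pos (Finset.mem_range.1 hi), Finset.sum_const,
      Finset.card_range, nsmul_eq_mul]
    push_cast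
    linear_combination ((M' : ℂ) * c) * hwc
  have hm2 : Complex.normSq m ≤ (M * c) ^ 2 := by
    rw [Complex.normSq_eq_norm_sq]
    exact pow_le_pow_left₀ (norm_nonneg _) hmb 2
  have hMc : (M : ℝ) * c * M ≤ 1 := by linarith
  have hMc1 : (M : ℝ) * c * 4 ≤ δ := by
    by_contra hlt
    push Not at hlt
    nlinarith [mul_lt_mul_of_pos_right hlt hMpos]
  have hMc4 : (M : ℝ) * c * 4 ≤ 1 := by
    nlinarith [mul_le_mul_of_nonneg_left hM4 (mul_pos hMpos hcpos).le]
  have hq : Complex.normSq m * 4 ≤ M * c := by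
    nlinarith [mul_le_mul_of_nonneg_left hMc4 (mul_pos hMpos hcpos).le]
  refine ⟨h, hBd, hhm, ?_, fun hzero => ?_⟩
  · rw [hc0, Complex.ofReal_ne_zero]
    intro e
    nlinarith [mul_pos hMpos hcpos, Complex.normSq_nonneg m]
  have hI : ∀ n : ℕ, ∫ x, fourier (n : ℤ) x ∂(specM V h) = cor T μ h h n := fun n => by
    rw [integral_specM, pairD_coeff hT hV hBd hBd]
  have hintre : Integrable (fun x => (w * fourier (1 : ℤ) x).re) (specM V h) := by
    simpa using ((integrable_cont (specM V h) (fourier (1 : ℤ))).const_mul w).re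
  have hle : ∫ x, (w * fourier (1 : ℤ) x).re ∂(specM V h) ≤ ∫ _x, (1 - δ) ∂(specM V h) := by
    refine integral_mono_ae hintre (integrable_const _) ?_
    filter_upwards [measure_eq_zero_iff_ae_notMem.1 hzero] with x hx using hgap x hx
  have e1 : ∫ x, (w * fourier (1 : ℤ) x).re ∂(specM V h) = (w * cor T μ h h 1).re := by
    rw [← hI 1, ← integral_const_mul]
    simpa using integral_re ((integrable_cont (specM V h) (fourier (1 : ℤ))).const_mul w)
  have e2 : (specM V h).real univ = M * c - Complex.normSq m := by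
    have := hI 0
    rw [hc0] at this
    simp only [Nat.cast_zero, fourier_zero, integral_const, Complex.real_smul, mul_one] at this
    exact_mod_cast this
  rw [e1, integral_const, smul_eq_mul, e2, hc1] at hle
  simp only [Complex.sub_re, Complex.mul_re, Complex.natCast_re, Complex.natCast_im,
    Complex.ofReal_re, Complex.ofReal_im, Complex.one_re, Complex.sub_im, Complex.one_im,
    sub_zero, mul_zero] at hle
  have hwre : w.re * Complex.normSq m ≤ Complex.normSq m :=
    mul_le_of_le_one_left (Complex.normSq_nonneg _) ((Complex.re_le_norm w).trans hwn.le)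
  nlinarith [mul_le_mul_of_nonneg_left hq hδ.le, mul_lt_mul_of_pos_right hMδ hcpos,
    Complex.normSq_nonneg m]

/-- The sigma-algebra generated by a set of factors. -/
@[instance_reducible]
def joinA {ι : Type*} (A : ι → MeasurableSpace X) (S : Finset ι) : MeasurableSpace X :=
  ⨆ i ∈ (S : Set ι), A i

/-- Bounded functions measurable for the factors in `S`. -/
structure BM {ι : Type*} (A : ι → MeasurableSpace X) (S : Finset ι) (a : X → ℂ) : Prop where
  meas : Measurable[joinA A S] a
  bdd : ∃ C, ∀ x, ‖a x‖ ≤ C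

/-- A mean-zero function of the factors in `S` that splits off a mean-zero function of each. -/
structure Good (μ : Measure X) {ι : Type*} [DecidableEq ι] (A : ι → MeasurableSpace X)
    (S : Finset ι) (v : X → ℂ) : Prop where
  bm : BM A S v
  mean : ∫ x, v x ∂μ = 0
  split : ∀ j ∈ S, ∃ a b, BM A {j} a ∧ ∫ x, a x ∂μ = 0 ∧ BM A (S.erase j) b ∧ v = a * b

section Family

variable {ι : Type*} [DecidableEq ι] {A : ι → MeasurableSpace X}

theorem joinA_mono {S S' : Finset ι} (h : S ⊆ S') : joinA A S ≤ joinA A S' :=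
  biSup_mono fun _ hi => h hi

theorem joinA_le (hle : ∀ i, A i ≤ mX) (S : Finset ι) : joinA A S ≤ mX :=
  iSup₂_le fun i _ => hle i

theorem joinA_inv (hinv : ∀ i, MeasurableSpace.comap T (A i) ≤ A i) (S : Finset ι) :
    MeasurableSpace.comap T (joinA A S) ≤ joinA A S := by
  simp only [joinA, MeasurableSpace.comap_iSup]
  exact iSup_mono fun i => iSup_mono fun _ => hinv i

theorem BM.mono {S S' : Finset ι} {a : X → ℂ} (ha : BM A S a) (h : S ⊆ S') : BM A S' a :=
  ⟨ha.meas.mono (joinA_mono h) le_rfl, ha.bdd⟩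

theorem BM.mul {S : Finset ι} {a b : X → ℂ} (ha : BM A S a) (hb : BM A S b) : BM A S (a * b) := by
  obtain ⟨C, hC⟩ := ha.bdd
  obtain ⟨D, hD⟩ := hb.bdd
  exact ⟨ha.meas.mul hb.meas, ⟨C * D, fun x => (norm_mul_le _ _).trans
    (mul_le_mul (hC x) (hD x) (norm_nonneg _) ((norm_nonneg _).trans (hC x)))⟩⟩

theorem BM.conj' {S : Finset ι} {a : X → ℂ} (ha : BM A S a) : BM A S (fun x => conj (a x)) := by
  obtain ⟨C, hC⟩ := ha.bdd
  exact ⟨Complex.continuous_conj.measurable.comp ha.meas, ⟨C, fun x => by simpa using hC x⟩⟩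

theorem BM.iter (hinv : ∀ i, MeasurableSpace.comap T (A i) ≤ A i) {S : Finset ι} {a : X → ℂ}
    (ha : BM A S a) (n : ℕ) : BM A S (a ∘ T^[n]) := by
  obtain ⟨C, hC⟩ := ha.bdd
  exact ⟨ha.meas.comp (measurable_iterate (joinA_inv hinv S) n), ⟨C, fun x => hC _⟩⟩

theorem BM.measX (hle : ∀ i, A i ≤ mX) {S : Finset ι} {a : X → ℂ} (ha : BM A S a) :
    Measurable a :=
  ha.meas.mono (joinA_le hle S) le_rfl

theorem integral_mul_indep (hle : ∀ i, A i ≤ mX) (hind : iIndep A μ) {S S' : Finset ι}
    (hd : Disjoint S S') {a b : X → ℂ} (ha : BM A S a) (hb : BM A S' b) :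
    ∫ x, a x * b x ∂μ = (∫ x, a x ∂μ) * ∫ x, b x ∂μ := by
  refine IndepFun.integral_fun_mul_eq_mul_integral ?_ (ha.measX hle).aestronglyMeasurable
    (hb.measX hle).aestronglyMeasurable
  have h := indep_iSup_of_disjoint hle hind (Finset.disjoint_coe.2 hd)
  exact indep_of_indep_of_le_left (indep_of_indep_of_le_right h hb.meas.comap_le) ha.meas.comap_le

theorem Good.bd (hle : ∀ i, A i ≤ mX) {S : Finset ι} {v : X → ℂ} (hv : Good μ A S v) : Bd μ v :=
  ⟨hv.bm.measX hle, hv.bm.bdd, hv.mean⟩

theorem mean_iter (hT : MeasurePreserving T μ μ) {a : X → ℂ} (ha : Measurable a) (n : ℕ) :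
    ∫ x, (a ∘ T^[n]) x ∂μ = ∫ x, a x ∂μ := by
  have := integral_map (hT.iterate n).measurable.aemeasurable (f := a) (μ := μ)
    ha.aestronglyMeasurable
  rw [(hT.iterate n).map_eq] at this
  exact this.symm

theorem Good.cor_zero (hT : MeasurePreserving T μ μ) (hle : ∀ i, A i ≤ mX)
    (hinv : ∀ i, MeasurableSpace.comap T (A i) ≤ A i) (hind : iIndep A μ) {S S' : Finset ι}
    (hne : S ≠ S') {v v' : X → ℂ} (hv : Good μ A S v) (hv' : Good μ A S' v') (n : ℕ) :
    cor T μ v v' n = 0 := by
  by_cases hsub : S ⊆ S'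
  · obtain ⟨j, hj', hj⟩ := Finset.exists_of_ssubset (hsub.ssubset_of_ne hne)
    obtain ⟨a, b, ha, ha0, hb, rfl⟩ := hv'.split j hj'
    have h := integral_mul_indep hle hind (S := {j}) (S' := S ∪ S'.erase j)
      (by simp [hj]) ha.conj'
      (((hv.bm.iter hinv n).mono Finset.subset_union_left).mul
        (hb.conj'.mono Finset.subset_union_right))
    rw [integral_conj, ha0, map_zero, zero_mul] at h
    rw [cor, ← h]
    refine integral_congr_ae (Eventually.of_forall fun x => ?_)
    simp only [Pi.mul_apply, map_mul, Function.comp_apply]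
    ring
  · obtain ⟨j, hj, hj'⟩ := Finset.not_subset.1 hsub
    obtain ⟨a, b, ha, ha0, hb, rfl⟩ := hv.split j hj
    have h := integral_mul_indep hle hind (S := {j}) (S' := S.erase j ∪ S')
      (by simp [hj']) (ha.iter hinv n)
      (((hb.iter hinv n).mono Finset.subset_union_left).mul
        (hv'.bm.conj'.mono Finset.subset_union_right))
    rw [mean_iter hT (ha.measX hle), ha0, zero_mul] at h
    rw [cor, ← h]
    refine integral_congr_ae (Eventually.of_forall fun x => ?_)
    simp only [Pi.mul_apply, Function.comp_apply]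
    ring

theorem good_single {j : ι} {a : X → ℂ} (ha : BM A {j} a) (ha0 : ∫ x, a x ∂μ = 0) :
    Good μ A {j} a := by
  refine ⟨ha, ha0, fun i hi => ?_⟩
  rw [Finset.mem_singleton] at hi
  subst hi
  exact ⟨a, 1, ha, ha0, ⟨measurable_const, ⟨1, fun x => by simp⟩⟩, (mul_one a).symm⟩

theorem Good.insert_mul (hle : ∀ i, A i ≤ mX) (hind : iIndep A μ) {S : Finset ι} {j : ι}
    (hj : j ∉ S) {g h : X → ℂ} (hg : Good μ A S g) (hh : Good μ A {j} h) :
    Good μ A (insert j S) (g * h) := by
  have hgm := hg.bm.mono (Finset.subset_insert j S)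
  have hhm := hh.bm.mono (show ({j} : Finset ι) ⊆ insert j S by simp)
  refine ⟨hgm.mul hhm, ?_, fun i hi => ?_⟩
  · show ∫ x, g x * h x ∂μ = 0
    rw [integral_mul_indep hle hind (by simp [hj]) hg.bm hh.bm, hg.mean, zero_mul]
  rcases Finset.mem_insert.1 hi with rfl | hiS
  · exact ⟨h, g, hh.bm, hh.mean, by rw [Finset.erase_insert hj]; exact hg.bm, mul_comm g h⟩
  · obtain ⟨a, b, ha, ha0, hb, rfl⟩ := hg.split i hiS
    have hij : i ≠ j := fun e => hj (e ▸ hiS)
    exact ⟨a, b * h, ha, ha0, (hb.mono (Finset.erase_subset_erase i (Finset.subset_insert j S))).mul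
      (hh.bm.mono (by simp [hij.symm])), by rw [mul_assoc]⟩

theorem cor_mul (hle : ∀ i, A i ≤ mX) (hinv : ∀ i, MeasurableSpace.comap T (A i) ≤ A i)
    (hind : iIndep A μ) {S S' : Finset ι} (hd : Disjoint S S') {g h : X → ℂ} (hg : BM A S g)
    (hh : BM A S' h) (n : ℕ) :
    cor T μ (g * h) (g * h) n = cor T μ g g n * cor T μ h h n := by
  have e := integral_mul_indep hle hind hd ((hg.iter hinv n).mul hg.conj')
    ((hh.iter hinv n).mul hh.conj')
  simp only [Pi.mul_apply, Function.comp_apply] at e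
  rw [cor, cor, cor, ← e]
  refine integral_congr_ae (Eventually.of_forall fun x => ?_)
  simp only [Pi.mul_apply, map_mul]
  ring

theorem A_le_joinA (j : ι) : A j ≤ joinA A {j} := le_biSup A (Finset.mem_singleton_self j)

/-- A good function of one factor with spectral mass in a given open arc. -/
theorem exists_good_mass (hT : MeasurePreserving T μ μ) (hV : Rep V T μ) (hle : ∀ i, A i ≤ mX)
    (hinv : ∀ i, MeasurableSpace.comap T (A i) ≤ A i)
    (hnt : ∀ i, ∃ s, MeasurableSet[A i] s ∧ 0 < μ s ∧ μ s < 1) (j : ι)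
    {O : Set Circ} (hO : IsOpen O) (hne : O.Nonempty) :
    ∃ h, Good μ A {j} h ∧ cor T μ h h 0 ≠ 0 ∧ specM V h O ≠ 0 := by
  obtain ⟨s, hs, h0, h1⟩ := hnt j
  obtain ⟨y0, hy0⟩ := hne
  obtain ⟨h, hb, hm, hc, hO'⟩ := exists_mass (joinA_le hle {j}) (joinA_inv hinv {j}) hT hV
    (A_le_joinA j _ hs) h0 h1 hO hy0
  exact ⟨h, good_single ⟨hm, hb.bdd⟩ hb.mean, hc, hO'⟩

theorem exists_good (hT : MeasurePreserving T μ μ) (hV : Rep V T μ) (hle : ∀ i, A i ≤ mX)
    (hinv : ∀ i, MeasurableSpace.comap T (A i) ≤ A i) (hind : iIndep A μ)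
    (hnt : ∀ i, ∃ s, MeasurableSet[A i] s ∧ 0 < μ s ∧ μ s < 1) {S : Finset ι} (hS : S.Nonempty) :
    ∃ v, Good μ A S v ∧ cor T μ v v 0 ≠ 0 := by
  induction hS using Finset.Nonempty.cons_induction with
  | singleton j =>
    obtain ⟨h, hh, hc, -⟩ := exists_good_mass hT hV hle hinv hnt j isOpen_univ univ_nonempty
    exact ⟨h, hh, hc⟩
  | cons j S hj _ ih =>
    obtain ⟨g, hg, hgc⟩ := ih
    obtain ⟨h, hh, hhc, -⟩ := exists_good_mass hT hV hle hinv hnt j isOpen_univ univ_nonempty
    refine ⟨g * h, ?_, ?_⟩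
    · rw [Finset.cons_eq_insert]; exact hg.insert_mul hle hind hj hh
    · rw [cor_mul hle hinv hind (by simp [hj]) hg.bm hh.bm]
      exact mul_ne_zero hgc hhc

/-- For two or more factors the product can be chosen with spectral mass on any set of positive
measure. -/
theorem exists_good_on (hT : MeasurePreserving T μ μ) (hV : Rep V T μ) (hle : ∀ i, A i ≤ mX)
    (hinv : ∀ i, MeasurableSpace.comap T (A i) ≤ A i) (hind : iIndep A μ)
    (hnt : ∀ i, ∃ s, MeasurableSet[A i] s ∧ 0 < μ s ∧ μ s < 1) {S : Finset ι} (hS : 2 ≤ S.card)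
    {P : Set Circ} (hP : MeasurableSet P) (hP0 : haar P ≠ 0) :
    ∃ v, Good μ A S v ∧ specM V v P ≠ 0 := by
  obtain ⟨j, hj⟩ := Finset.card_pos.1 (show 0 < S.card by omega)
  have hne : (S.erase j).Nonempty := by
    rw [← Finset.card_pos, Finset.card_erase_of_mem hj]; omega
  obtain ⟨g, hg, hgc⟩ := exists_good hT hV hle hinv hind hnt hne
  obtain ⟨O, hO, hOne, hOpos⟩ := exists_open_translate
    (integrable_dens (V := V) g).aemeasurable.ennreal_ofReal
    (fun h0 => specM_ne_zero hT hV (hg.bd hle) hgc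
      (by rw [specM]; exact withDensity_eq_zero_iff ((integrable_dens (V := V) g).aemeasurable.ennreal_ofReal) |>.2 h0))
    hP hP0
  obtain ⟨h, hh, hhc, hhO⟩ := exists_good_mass hT hV hle hinv hnt j hO hOne
  have hjn : j ∉ S.erase j := Finset.notMem_erase j S
  have hv := hg.insert_mul hle hind hjn hh
  rw [Finset.insert_erase hj] at hv
  refine ⟨g * h, hv, ?_⟩
  rw [specM_mul hT hV (hg.bd hle) (hh.bd hle) (hv.bd hle)
      (fun n => cor_mul hle hinv hind (by simp) hg.bm hh.bm n),
    Measure.map_apply (f := fun z : Circ × Circ => z.1 + z.2) (measurable_fst.add measurable_snd) hP,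
    Measure.prod_apply_symm (s := (fun z : Circ × Circ => z.1 + z.2) ⁻¹' P)
      ((measurable_fst.add measurable_snd) hP)]
  intro h0
  have hmeas : MeasurableSet ((fun z : Circ × Circ => z.1 + z.2) ⁻¹' P) :=
    (measurable_fst.add measurable_snd) hP
  rw [lintegral_eq_zero_iff (measurable_measure_prodMk_right hmeas)] at h0
  refine hhO (measure_mono_null (fun y hy => ?_) (ae_iff.1 h0))
  simp only [mem_ofPred_eq, Pi.zero_apply]
  exact hOpos y hy

theorem exists_common_point (hT : MeasurePreserving T μ μ) (hV : Rep V T μ) (hle : ∀ i, A i ≤ mX)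
    (hinv : ∀ i, MeasurableSpace.comap T (A i) ≤ A i) (hind : iIndep A μ)
    (hnt : ∀ i, ∃ s, MeasurableSet[A i] s ∧ 0 < μ s ∧ μ s < 1) (j0 : ι)
    (𝒮 : Finset (Finset ι)) (h𝒮 : ∀ S ∈ 𝒮, 2 ≤ S.card) :
    ∃ v : Finset ι → X → ℂ, (∀ S ∈ insert {j0} 𝒮, Good μ A S (v S)) ∧
      ∃ P : Set Circ, MeasurableSet P ∧ haar P ≠ 0 ∧
        ∀ S ∈ insert {j0} 𝒮, ∀ᵐ x ∂(haar.restrict P), 0 < dens V (v S) x := by
  induction 𝒮 using Finset.induction_on with
  | empty =>
    obtain ⟨a, ha, hac, -⟩ := exists_good_mass hT hV hle hinv hnt j0 isOpen_univ univ_nonempty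
    have hne : specM V a univ ≠ 0 :=
      fun h => specM_ne_zero hT hV (ha.bd hle) hac (Measure.measure_univ_eq_zero.1 h)
    refine ⟨fun _ => a, by simpa using ha, ?_⟩
    obtain ⟨P, hsub, hP, hPe⟩ := (nullMeasurableSet_lt (μ := haar) aemeasurable_const
      (integrable_dens (V := V) a).aemeasurable).exists_measurable_subset_ae_eq
    refine ⟨P, hP, ?_, fun S _ => ?_⟩
    · rw [measure_congr hPe]; simpa using dens_pos_of_specM a hne
    · exact ae_restrict_of_forall_mem hP fun x hx => hsub hx
  | @insert S 𝒮 hS ih =>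
    obtain ⟨v, hv, P, hP, hP0, hpos⟩ := ih fun S' h => h𝒮 S' (Finset.mem_insert_of_mem h)
    have hScard := h𝒮 S (Finset.mem_insert_self _ _)
    obtain ⟨u, hu, huP⟩ := exists_good_on hT hV hle hinv hind hnt hScard hP hP0
    obtain ⟨D, hsub, hD, hDe⟩ := (nullMeasurableSet_lt (μ := haar) aemeasurable_const
      (integrable_dens (V := V) u).aemeasurable).exists_measurable_subset_ae_eq
    have hS' : S ∉ insert {j0} 𝒮 := by
      intro h
      rcases Finset.mem_insert.1 h with rfl | h
      · simp at hScard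
      · exact hS h
    refine ⟨Function.update v S u, fun S' h => ?_, P ∩ D, hP.inter hD, ?_, fun S' h => ?_⟩
    · rw [Finset.insert_comm, Finset.mem_insert] at h
      rcases h with rfl | h
      · rwa [Function.update_self]
      · rw [Function.update_of_ne (fun e => hS' (by rw [← e]; exact h))]; exact hv S' h
    · rw [measure_congr (EventuallyEq.rfl.inter hDe)]
      exact dens_pos_of_specM u huP
    · rw [Finset.insert_comm, Finset.mem_insert] at h
      rcases h with rfl | h
      · rw [Function.update_self]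
        exact ae_restrict_of_forall_mem (hP.inter hD) fun x hx => hsub hx.2
      · rw [Function.update_of_ne (fun e => hS' (by rw [← e]; exact h))]
        exact ae_restrict_of_ae_restrict_of_subset inter_subset_left (hpos S' h)

/-- Independent invariant factors of a system with absolutely continuous spectrum of multiplicity
at most `N`. -/
theorem card_subsets_le (hT : MeasurePreserving T μ μ) (hV : Rep V T μ) (hle : ∀ i, A i ≤ mX)
    (hinv : ∀ i, MeasurableSpace.comap T (A i) ≤ A i) (hind : iIndep A μ)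
    (hnt : ∀ i, ∃ s, MeasurableSet[A i] s ∧ 0 < μ s ∧ μ s < 1) (j0 : ι)
    (𝒮 : Finset (Finset ι)) (h𝒮 : ∀ S ∈ 𝒮, 2 ≤ S.card) : 𝒮.card + 1 ≤ N := by
  obtain ⟨v, hv, P, hP, hP0, hpos⟩ := exists_common_point hT hV hle hinv hind hnt j0 𝒮 h𝒮
  set ℱ := insert {j0} 𝒮 with hℱ
  have hcard : ℱ.card = 𝒮.card + 1 :=
    Finset.card_insert_of_notMem fun h => by simpa using h𝒮 _ h
  have horth : ∀ᵐ x ∂(haar.restrict P), ∀ S ∈ ℱ, ∀ S' ∈ ℱ, S ≠ S' →
      pairD V (v S) (v S') x = 0 := by
    rw [Filter.eventually_all_finset]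
    intro S hS
    rw [Filter.eventually_all_finset]
    intro S' hS'
    by_cases hne : S = S'
    · exact Eventually.of_forall fun x h => absurd hne h
    · filter_upwards [ae_restrict_of_ae (pairD_eq_zero hT hV ((hv S hS).bd hle) ((hv S' hS').bd hle)
        (fun n => (hv S hS).cor_zero hT hle hinv hind hne (hv S' hS') n)
        (fun n => (hv S' hS').cor_zero hT hle hinv hind (Ne.symm hne) (hv S hS) n))] with x hx _
        using hx
  have hall : ∀ᵐ x ∂(haar.restrict P), ∀ S ∈ ℱ, 0 < dens V (v S) x :=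
    (Filter.eventually_all_finset ℱ).2 hpos
  have : NeBot (ae (haar.restrict P)) := by
    rw [ae_neBot, Ne, Measure.restrict_eq_zero]; exact hP0
  obtain ⟨x, hx1, hx2⟩ := (horth.and hall).exists
  let vec : ℱ → EuclideanSpace ℂ (Fin N) := fun S =>
    WithLp.toLp 2 fun i => spec V (v S.1) i x
  have hlin : LinearIndependent ℂ vec := by
    refine linearIndependent_of_ne_zero_of_inner_eq_zero (fun S h0 => ?_) fun S S' hne => ?_
    · have h1 := hx2 S.1 S.2
      have h2 : ∀ i, spec V (v S.1) i x = 0 := fun i =>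
        congrFun (congrArg WithLp.ofLp h0) i
      simp [dens, h2] at h1
    · show inner ℂ (vec S) (vec S') = 0
      rw [PiLp.inner_apply]
      simp only [vec, RCLike.inner_apply]
      exact hx1 S'.1 S'.2 S.1 S.2 (fun e => hne (Subtype.ext e.symm))
  have h := hlin.fintype_card_le_finrank
  rw [Fintype.card_coe, hcard, finrank_euclideanSpace_fin] at h
  exact h

end Family

/-- If the absolutely continuous spectrum has multiplicity at most `N`, then `k` independent
nontrivial invariant sigma-algebras force `2 ^ k ≤ N + k`. -/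
theorem two_pow_le {N : ℕ} (hT : MeasurePreserving T μ μ) (h : ACSpectrumAtMost N T μ) {k : ℕ}
    (hk : 0 < k) (A : Fin k → MeasurableSpace X) (hle : ∀ i, A i ≤ mX)
    (hinv : ∀ i, MeasurableSpace.comap T (A i) ≤ A i) (hind : iIndep A μ)
    (hnt : ∀ i, ∃ s, MeasurableSet[A i] s ∧ 0 < μ s ∧ μ s < 1) : 2 ^ k ≤ N + k := by
  obtain ⟨V, hV'⟩ := exists_rep h
  have hV := hV' hT
  classical
  have hb := card_subsets_le (V := V) hT hV hle hinv hind hnt (⟨0, hk⟩ : Fin k)
    ((Finset.univ : Finset (Finset (Fin k))).filter fun S => 2 ≤ S.card)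
    (fun S hS => (Finset.mem_filter.1 hS).2)
  have h1 : ((Finset.univ : Finset (Finset (Fin k))).filter fun S => ¬ 2 ≤ S.card) ⊆
      insert ∅ ((Finset.univ : Finset (Fin k)).image fun j => {j}) := by
    intro S hS
    rcases Nat.lt_or_ge S.card 1 with h0 | h0
    · simp [Finset.card_eq_zero.1 (show S.card = 0 by omega)]
    · obtain ⟨j, rfl⟩ := Finset.card_eq_one.1
        (show S.card = 1 by have := (Finset.mem_filter.1 hS).2; omega)
      simp
  have h2 := (Finset.card_le_card h1).trans (Finset.card_insert_le _ _)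
  have h3 := Finset.card_filter_add_card_filter_not
    (s := (Finset.univ : Finset (Finset (Fin k)))) fun S => 2 ≤ S.card
  simp only [Finset.card_univ, Fintype.card_finset, Fintype.card_fin] at h3
  have h4 : ((Finset.univ : Finset (Fin k)).image fun j => ({j} : Finset (Fin k))).card ≤ k :=
    Finset.card_image_le.trans (by simp)
  omega

/-- A transformation with simple Lebesgue spectrum has no two independent nontrivial invariant
sigma-algebras. -/
theorem no_two_factors (hT : MeasurePreserving T μ μ) (h : SimpleLebesgueSpectrum T μ)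
    (A B : MeasurableSpace X) (hA : A ≤ mX) (hB : B ≤ mX) (hA' : MeasurableSpace.comap T A ≤ A)
    (hB' : MeasurableSpace.comap T B ≤ B) (hAB : Indep A B μ)
    {s : Set X} (hs : MeasurableSet[A] s) (hs0 : 0 < μ s) (hs1 : μ s < 1)
    {u : Set X} (hu : MeasurableSet[B] u) (hu0 : 0 < μ u) (hu1 : μ u < 1) : False := by
  have hind : iIndep (fun i => ![A, B] i) μ := by
    rw [iIndep_iff]
    intro t f hf
    rcases Finset.eq_empty_or_nonempty t with rfl | -
    · simp
    by_cases h0 : (0 : Fin 2) ∈ t <;> by_cases h1 : (1 : Fin 2) ∈ t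
    · have e : t = {0, 1} := by ext i; fin_cases i <;> simp [h0, h1]
      subst e
      simp only [Finset.prod_pair (show (0 : Fin 2) ≠ 1 by decide), Finset.set_biInter_insert,
        Finset.set_biInter_singleton]
      exact (Indep_iff _ _ _).1 hAB _ _ (hf 0 h0) (hf 1 h1)
    · have e : t = {0} := by ext i; fin_cases i <;> simp [h0, h1]
      subst e; simp
    · have e : t = {1} := by ext i; fin_cases i <;> simp [h0, h1]
      subst e; simp
    · have e : t = ∅ := by ext i; fin_cases i <;> simp [h0, h1]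
      subst e; simp
  have := two_pow_le hT (acSpectrumAtMost_one h) two_pos ![A, B] (Fin.forall_fin_two.2 ⟨hA, hB⟩)
    (Fin.forall_fin_two.2 ⟨hA', hB'⟩) hind
    (Fin.forall_fin_two.2 ⟨⟨s, hs, hs0, hs1⟩, ⟨u, hu, hu0, hu1⟩⟩)
  omega

end

end Vale.Agent.P130
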