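import Mathlib
import Vale.Agent.P130.Circle

/-!
Convergence in `L¹` of a product of squares of factors close to one, with an almost everywhere
positive limit, and the null zero set of a trigonometric polynomial on the circle.
-/

open MeasureTheory Filter Finset
open scoped Topology ENNReal

noncomputable section

namespace Vale.Agent.P130.RieszLimit

variable {α : Type*} [MeasurableSpace α] {μ : Measure α}

/-- A product of squares of nonvanishing numbers summably close to one converges to a positive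
number. -/
theorem exists_pos_limit {b : ℕ → ℝ} {d : ℕ → ℝ} (hd0 : 0 < d 0)
    (hd : ∀ n, d (n + 1) = d n * b n ^ 2) (hb : ∀ n, b n ≠ 0)
    (hs : Summable fun n => |b n - 1|) : ∃ l, 0 < l ∧ Tendsto d atTop (𝓝 l) := by
  set u : ℕ → ℝ := fun n => b n ^ 2 - 1
  have hu : Summable fun n => ‖u n‖ := by
    refine (hs.mul_right (2 + ∑' k, |b k - 1|)).of_nonneg_of_le (fun n => norm_nonneg _) fun n => ?_
    rw [Real.norm_eq_abs, show u n = (b n - 1) * (b n + 1) by simp only [u]; ring, abs_mul]
    refine mul_le_mul_of_nonneg_left ?_ (abs_nonneg _)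
    have h1 := hs.le_tsum n (fun j _ => abs_nonneg _)
    calc |b n + 1| = |(b n - 1) + 2| := by ring_nf
      _ ≤ |b n - 1| + |(2 : ℝ)| := abs_add_le _ _
      _ ≤ 2 + ∑' k, |b k - 1| := by rw [abs_two]; linarith
  have hne : ∀ n, 1 + u n ≠ 0 := fun n => by simp [u, hb n]
  have hp : 0 < ∏' n, (1 + u n) := by
    refine lt_of_le_of_ne ?_ (tprod_one_add_ne_zero_of_summable hne hu).symm
    exact ge_of_tendsto' (multipliable_one_add_of_summable hu).hasProd.tendsto_prod_nat fun n =>
      prod_nonneg fun i _ => by simp only [u]; nlinarith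
  have hdp : ∀ n, d n = d 0 * ∏ i ∈ range n, (1 + u i) := by
    intro n
    induction n with
    | zero => simp
    | succ n ih => rw [hd, prod_range_succ, ih]; simp only [u]; ring
  refine ⟨d 0 * ∏' n, (1 + u n), mul_pos hd0 hp, ?_⟩
  exact ((multipliable_one_add_of_summable hu).hasProd.tendsto_prod_nat.const_mul (d 0)).congr
    fun n => (hdp n).symm

/-- Real sequences growing by summable relative amounts are bounded. -/
theorem exists_bound {M s : ℕ → ℝ} (hM : ∀ n, 0 ≤ M n) (hs0 : ∀ n, 0 ≤ s n) (hs : Summable s)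
    (h : ∀ n, M (n + 1) + 1 ≤ (1 + s n) * (M n + 1)) : ∃ B, ∀ n, M n ≤ B := by
  refine ⟨(M 0 + 1) * Real.exp (∑' n, s n), fun n => ?_⟩
  have hn : M n + 1 ≤ (M 0 + 1) * Real.exp (∑ i ∈ range n, s i) := by
    induction n with
    | zero => simp
    | succ n ih =>
      rw [sum_range_succ, Real.exp_add, ← mul_assoc, mul_comm _ (Real.exp (s n))]
      refine (h n).trans (mul_le_mul ?_ ih (by linarith [hM n]) (Real.exp_pos _).le)
      linarith [Real.add_one_le_exp (s n)]
  have h2 : Real.exp (∑ i ∈ range n, s i) ≤ Real.exp (∑' i, s i) :=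
    Real.exp_le_exp.2 (hs.sum_le_tsum _ fun i _ => hs0 i)
  have h3 := mul_le_mul_of_nonneg_left h2 (by linarith [hM 0] : 0 ≤ M 0 + 1)
  linarith

/-- **Products of squares converge in `L¹` to an almost everywhere positive density**, if the
factors are summably close to one in mean and summably close to one in the mean square of the
partial products. -/
theorem exists_limit {a D : ℕ → α → ℝ} (ha : ∀ n, AEMeasurable (a n) μ)
    (hane : ∀ n, ∀ᵐ t ∂μ, a n t ≠ 0) (hai : ∀ n, Integrable (fun t => a n t - 1) μ)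
    (hasum : Summable fun n => ∫ t, |a n t - 1| ∂μ) (hD : ∀ n, Integrable (D n) μ)
    (hD0 : ∀ᵐ t ∂μ, 0 < D 0 t) (hstep : ∀ n, ∀ᵐ t ∂μ, D (n + 1) t = D n t * a n t ^ 2)
    (hroot : Summable fun n => √(∫ t, D n t * (a n t - 1) ^ 2 ∂μ)) :
    ∃ w : α → ℝ, Integrable w μ ∧ (∀ᵐ t ∂μ, 0 < w t) ∧
      Tendsto (fun n => ∫ t, |D n t - w t| ∂μ) atTop (𝓝 0) := by
  have hstep' : ∀ᵐ t ∂μ, ∀ n, D (n + 1) t = D n t * a n t ^ 2 := ae_all_iff.2 hstep
  have hane' : ∀ᵐ t ∂μ, ∀ n, a n t ≠ 0 := ae_all_iff.2 hane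
  have hpos : ∀ᵐ t ∂μ, ∀ n, 0 < D n t := by
    filter_upwards [hstep', hane', hD0] with t h1 h2 h3 n
    induction n with
    | zero => exact h3
    | succ n ih => rw [h1]; have := h2 n; positivity
  -- pointwise summability of the factors
  have hptw : ∀ᵐ t ∂μ, Summable fun n => |a n t - 1| := by
    have hf : ∀ n, AEMeasurable (fun t => ENNReal.ofReal |a n t - 1|) μ := fun n =>
      (hai n).abs.aemeasurable.ennreal_ofReal
    have hlt : ∫⁻ t, ∑' n, ENNReal.ofReal |a n t - 1| ∂μ ≠ ∞ := by
      rw [lintegral_tsum hf]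
      simp only [← ofReal_integral_eq_lintegral_ofReal (hai _).abs
        (Eventually.of_forall fun t => abs_nonneg _)]
      rw [← ENNReal.ofReal_tsum_of_nonneg (fun n => integral_nonneg fun t => abs_nonneg _) hasum]
      exact ENNReal.ofReal_ne_top
    filter_upwards [ae_lt_top' (AEMeasurable.tsum hf) hlt] with t ht
    refine (ENNReal.summable_toReal ht.ne).congr fun n => ?_
    rw [ENNReal.toReal_ofReal (abs_nonneg _)]
  -- the pointwise limit
  have hlim : ∀ᵐ t ∂μ, ∃ l, 0 < l ∧ Tendsto (fun n => D n t) atTop (𝓝 l) := by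
    filter_upwards [hstep', hane', hD0, hptw] with t h1 h2 h3 h4
    exact exists_pos_limit (d := fun n => D n t) h3 h1 h2 h4
  obtain ⟨w, hwm, hw⟩ := measurable_limit_of_tendsto_metrizable_ae (fun n => (hD n).aemeasurable)
    (hlim.mono fun t ⟨l, _, hl⟩ => ⟨l, hl⟩)
  have hwpos : ∀ᵐ t ∂μ, 0 < w t := by
    filter_upwards [hlim, hw] with t ⟨l, hl, hl'⟩ h
    rwa [tendsto_nhds_unique h hl']
  -- the increments
  set r : ℕ → ℝ := fun n => √(∫ t, D n t * (a n t - 1) ^ 2 ∂μ)
  set s : ℕ → ℝ := fun n => r n + (1 / 2) ^ n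
  have hr0 : ∀ n, 0 ≤ r n := fun n => Real.sqrt_nonneg _
  have hs0 : ∀ n, 0 < s n := fun n => add_pos_of_nonneg_of_pos (hr0 n) (by positivity)
  have hssum : Summable s := hroot.add summable_geometric_two
  set M : ℕ → ℝ := fun n => ∫ t, D n t ∂μ
  have hM0 : ∀ n, 0 ≤ M n := fun n => integral_nonneg_of_ae (hpos.mono fun t h => (h n).le)
  have hI : ∀ n, Integrable (fun t => D n t * (a n t - 1) ^ 2) μ := fun n => by
    refine Integrable.mono' (((hD n).abs.const_mul 2).add ((hD (n + 1)).abs.const_mul 2))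
      ((hD n).aestronglyMeasurable.mul
        (((ha n).aestronglyMeasurable.sub aestronglyMeasurable_const).pow 2)) ?_
    filter_upwards [hstep', hpos] with t h1 h2
    have hm : (0 : ℝ) < D n t := h2 n
    rw [Real.norm_eq_abs, abs_of_nonneg (by positivity), Pi.add_apply, abs_of_pos hm,
      abs_of_pos (h2 (n + 1)), h1]
    nlinarith [sq_nonneg (a n t + 1)]
  have hre : ∀ n, ∫ t, D n t * (a n t - 1) ^ 2 ∂μ = r n ^ 2 := fun n =>
    (Real.sq_sqrt (integral_nonneg_of_ae (hpos.mono fun t h =>
      mul_nonneg (h n).le (sq_nonneg _)))).symm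
  have hrs : ∀ n, r n ^ 2 / s n ≤ r n := fun n => by
    rw [div_le_iff₀ (hs0 n)]
    have : (0 : ℝ) ≤ (1 / 2) ^ n := by positivity
    nlinarith [hr0 n, show s n = r n + (1 / 2) ^ n from rfl]
  have hR : ∀ n, r n ≤ ∑' k, r k := fun n => hroot.le_tsum n fun j _ => hr0 j
  obtain ⟨B, hB⟩ : ∃ B, ∀ n, M n ≤ B := by
    refine exists_bound (s := fun n => s n + (∑' k, r k) * r n + r n) hM0
      (fun n => by have := hs0 n; have := hr0 n; have := (hr0 n).trans (hR n); positivity)
      ((hssum.add (hroot.mul_left _)).add hroot) fun n => ?_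
    have hle : M (n + 1) ≤ (1 + s n) * M n + (1 + 1 / s n) * r n ^ 2 := by
      rw [← hre, ← integral_const_mul, ← integral_const_mul,
        ← integral_add ((hD n).const_mul _) ((hI n).const_mul _)]
      refine integral_mono_ae (hD (n + 1)) (((hD n).const_mul _).add ((hI n).const_mul _)) ?_
      filter_upwards [hstep', hpos] with t h1 h2
      rw [h1]
      have hs := hs0 n
      have key : a n t ^ 2 ≤ (1 + s n) + (1 + 1 / s n) * (a n t - 1) ^ 2 := by
        have : 0 ≤ (s n - (a n t - 1)) ^ 2 / s n := by positivity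
        have e : (s n - (a n t - 1)) ^ 2 / s n
            = s n - 2 * (a n t - 1) + 1 / s n * (a n t - 1) ^ 2 := by field_simp; ring
        nlinarith
      have := mul_le_mul_of_nonneg_left key (h2 n).le
      linarith
    have h1 : (1 + 1 / s n) * r n ^ 2 ≤ (∑' k, r k) * r n + r n := by
      rw [add_mul, one_mul, one_div_mul_eq_div]
      nlinarith [hrs n, hR n, hr0 n]
    have h2 := mul_nonneg ((hr0 n).trans (hR n)) (hr0 n)
    nlinarith [hM0 n, hr0 n, hs0 n, mul_nonneg h2 (hM0 n), mul_nonneg (hr0 n) (hM0 n)]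
  set c : ℕ → ℝ := fun n => s n * (2 * B) + r n
  have hcsum : Summable c := (hssum.mul_right _).add hroot
  have hdiff : ∀ n, ∫ t, |D (n + 1) t - D n t| ∂μ ≤ c n := by
    intro n
    have hs := hs0 n
    have hle : ∫ t, |D (n + 1) t - D n t| ∂μ ≤
        s n * (M (n + 1) + M n) + 1 / (2 * s n) * r n ^ 2 := by
      have hsum2 : Integrable (fun t => D (n + 1) t + D n t) μ := (hD (n + 1)).add (hD n)
      have hdif : Integrable (fun t => D (n + 1) t - D n t) μ := (hD (n + 1)).sub (hD n)
      rw [← hre, ← integral_add (hD (n + 1)) (hD n), ← integral_const_mul, ← integral_const_mul,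
        ← integral_add (hsum2.const_mul _) ((hI n).const_mul _)]
      refine integral_mono_ae hdif.abs
        ((hsum2.const_mul _).add ((hI n).const_mul _)) ?_
      filter_upwards [hstep', hpos] with t h1 h2
      rw [h1, show D n t * a n t ^ 2 - D n t = D n t * ((a n t - 1) * (a n t + 1)) by ring,
        abs_mul, abs_of_pos (h2 n), abs_mul]
      have key : |a n t - 1| * |a n t + 1| ≤
          s n * (a n t ^ 2 + 1) + 1 / (2 * s n) * (a n t - 1) ^ 2 := by
        have h3 : 0 ≤ (s n * |a n t + 1| - |a n t - 1|) ^ 2 / (2 * s n) := by positivity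
        have e : (s n * |a n t + 1| - |a n t - 1|) ^ 2 / (2 * s n)
            = s n / 2 * (a n t + 1) ^ 2 - |a n t + 1| * |a n t - 1|
              + 1 / (2 * s n) * (a n t - 1) ^ 2 := by
          rw [← sq_abs (a n t + 1), ← sq_abs (a n t - 1)]; field_simp; ring
        nlinarith [sq_nonneg (a n t - 1)]
      have := mul_le_mul_of_nonneg_left key (h2 n).le
      linarith
    have h1 : 1 / (2 * s n) * r n ^ 2 ≤ r n := by
      rw [one_div_mul_eq_div, mul_comm, ← div_div]
      linarith [hrs n, hr0 n, div_nonneg (div_nonneg (sq_nonneg (r n)) hs.le) zero_le_two]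
    nlinarith [hB n, hB (n + 1)]
  -- the limit in mean
  have hc0 : ∀ n, 0 ≤ c n := fun n => (integral_nonneg fun t => abs_nonneg _).trans (hdiff n)
  have key : ∀ n, ∫⁻ t, ENNReal.ofReal |D n t - w t| ∂μ ≤ ∑' m, ENNReal.ofReal (c (n + m)) := by
    intro n
    calc ∫⁻ t, ENNReal.ofReal |D n t - w t| ∂μ
        ≤ ∫⁻ t, ∑' m, ENNReal.ofReal |D (n + m + 1) t - D (n + m) t| ∂μ := by
          refine lintegral_mono_ae (hw.mono fun t ht => ?_)
          have := edist_le_tsum_of_edist_le_of_tendsto
            (fun k => ENNReal.ofReal |D (k + 1) t - D k t|) (fun k => by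
              rw [edist_dist, Real.dist_eq, abs_sub_comm]) ht n
          rwa [edist_dist, Real.dist_eq] at this
      _ = ∑' m, ∫⁻ t, ENNReal.ofReal |D (n + m + 1) t - D (n + m) t| ∂μ :=
          lintegral_tsum fun m => ((hD _).sub (hD _)).abs.aemeasurable.ennreal_ofReal
      _ ≤ ∑' m, ENNReal.ofReal (c (n + m)) := by
          refine ENNReal.tsum_le_tsum fun m => ?_
          have hdif : Integrable (fun t => D (n + m + 1) t - D (n + m) t) μ := (hD _).sub (hD _)
          rw [← ofReal_integral_eq_lintegral_ofReal hdif.abs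
            (Eventually.of_forall fun t => abs_nonneg _)]
          exact ENNReal.ofReal_le_ofReal (hdiff _)
  have htail : ∀ n, ∑' m, ENNReal.ofReal (c (n + m)) = ENNReal.ofReal (∑' m, c (m + n)) := by
    intro n
    rw [ENNReal.ofReal_tsum_of_nonneg (fun m => hc0 _) ((summable_nat_add_iff n).2 hcsum)]
    simp only [add_comm]
  have hDw : ∀ n, Integrable (fun t => D n t - w t) μ := fun n => by
    refine ⟨(hD n).aestronglyMeasurable.sub hwm.aestronglyMeasurable, ?_⟩
    rw [hasFiniteIntegral_iff_norm]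
    simp only [Real.norm_eq_abs]
    exact ((key n).trans (htail n).le).trans_lt ENNReal.ofReal_lt_top
  refine ⟨w, ?_, hwpos, ?_⟩
  · exact ((hD 0).sub (hDw 0)).congr (Eventually.of_forall fun t => by simp)
  · refine squeeze_zero (fun n => integral_nonneg fun t => abs_nonneg _) (fun n => ?_)
      (tendsto_sum_nat_add c)
    have h := (key n).trans (htail n).le
    rw [← ofReal_integral_eq_lintegral_ofReal (hDw n).abs
      (Eventually.of_forall fun t => abs_nonneg _)] at h
    exact (ENNReal.ofReal_le_ofReal_iff (tsum_nonneg fun m => hc0 _)).1 h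

/-- Convergence in mean passes to integrals against bounded functions. -/
theorem tendsto_integral_mul {D : ℕ → α → ℝ} {w : α → ℝ} (hD : ∀ n, Integrable (D n) μ)
    (hw : Integrable w μ) (h : Tendsto (fun n => ∫ t, |D n t - w t| ∂μ) atTop (𝓝 0))
    {g : α → ℂ} (hg : AEStronglyMeasurable g μ) {C : ℝ} (hC : ∀ᵐ t ∂μ, ‖g t‖ ≤ C) :
    Tendsto (fun n => ∫ t, g t * (D n t : ℂ) ∂μ) atTop (𝓝 (∫ t, g t * (w t : ℂ) ∂μ)) := by
  rw [tendsto_iff_norm_sub_tendsto_zero]
  refine squeeze_zero (fun n => norm_nonneg _) (fun n => ?_) (by simpa using h.const_mul C)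
  have h1 : Integrable (fun t => g t * (D n t : ℂ)) μ := (hD n).ofReal.bdd_mul hg hC
  have h2 : Integrable (fun t => g t * (w t : ℂ)) μ := hw.ofReal.bdd_mul hg hC
  rw [← integral_sub h1 h2]
  refine (norm_integral_le_of_norm_le (((hD n).sub hw).abs.const_mul C) ?_).trans_eq
    (integral_const_mul _ _)
  filter_upwards [hC] with t ht
  rw [← mul_sub, ← Complex.ofReal_sub, norm_mul, Complex.norm_real, Real.norm_eq_abs]
  exact mul_le_mul_of_nonneg_right ht (abs_nonneg _)

open Polynomial in
/-- A trigonometric polynomial with a nonzero coefficient is nonzero almost everywhere. -/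
theorem ae_trig_ne_zero {s : Finset ℤ} {c : ℤ → ℂ} {i₀ : ℤ} (h₀ : i₀ ∈ s) (hc : c i₀ ≠ 0) :
    ∀ᵐ t ∂haar, ∑ i ∈ s, c i * fourier i t ≠ 0 := by
  set m : ℤ := s.min' ⟨i₀, h₀⟩
  have hm : ∀ i ∈ s, 0 ≤ i - m := fun i hi => sub_nonneg.2 (s.min'_le i hi)
  set P : ℂ[X] := ∑ i ∈ s, Polynomial.C (c i) * X ^ (i - m).toNat
  have hP : P ≠ 0 := fun h => hc (by
    have := congrArg (fun Q : ℂ[X] => Q.coeff (i₀ - m).toNat) h
    simp only [P, finsetSum_coeff, coeff_C_mul, coeff_X_pow, mul_ite, mul_one, mul_zero,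
      coeff_zero] at this
    rw [Finset.sum_eq_single i₀] at this
    · simpa using this
    · intro i hi hne
      refine if_neg fun he => hne ?_
      have := hm i hi; have := hm i₀ h₀
      omega
    · exact fun h => absurd h₀ h)
  have hfin : {t : Circ | (P.eval ((AddCircle.toCircle t : Circle) : ℂ)) = 0}.Finite := by
    refine Set.Finite.preimage (fun x _ y _ h => ?_) (finite_setOfPred_isRoot hP)
    exact AddCircle.injective_toCircle one_ne_zero (Subtype.ext h)
  refine ae_iff.2 (measure_mono_null (fun t ht => ?_)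
    (haveI : NullSingletonClass haar := ⟨haar_singleton⟩; hfin.countable.measure_zero haar))
  simp only [ne_eq, not_not, Set.mem_ofPred_eq] at ht ⊢
  have e : ∑ i ∈ s, c i * fourier i t =
      ((AddCircle.toCircle t : Circle) : ℂ) ^ m * P.eval ((AddCircle.toCircle t : Circle) : ℂ) := by
    rw [eval_finsetSum, mul_sum]
    refine sum_congr rfl fun i hi => ?_
    rw [eval_mul, eval_C, eval_pow, eval_X, fourier_apply, AddCircle.toCircle_zsmul,
      Circle.coe_zpow, mul_left_comm, ← zpow_natCast, ← zpow_add₀ (Circle.coe_ne_zero _),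
      Int.toNat_of_nonneg (hm i hi)]
    ring_nf
  rw [e, mul_eq_zero] at ht
  exact ht.resolve_left (zpow_ne_zero _ (Circle.coe_ne_zero _))

end Vale.Agent.P130.RieszLimit
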