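import Mathlib

/-!
Cutting and stacking on `[0, 1)`: the transformation of a schedule of rank-one towers.
-/

open MeasureTheory Filter Set
open scoped Topology ENNReal

namespace Vale.Agent.P130.Tower

/-- A schedule: tower `n` has height `h n`, tower `n + 1` contains `q n` copies of it starting at
the levels `a n j`; all other levels are spacers. `h n / Q n` stays bounded (finite measure). -/
structure Sched where
  h : ℕ → ℕ
  q : ℕ → ℕ
  a : ℕ → ℕ → ℕ
  h_pos : 0 < h 0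
  q_two : ∀ n, 2 ≤ q n
  gap : ∀ n j, j + 1 < q n → a n j + h n ≤ a n (j + 1)
  fit : ∀ n j, j < q n → a n j + h n ≤ h (n + 1)
  bdd : BddAbove (range fun n => (h n : ℝ) / ∏ k ∈ Finset.range n, (q k : ℝ))

namespace Sched

variable (P : Sched)

lemma copy_lt {n i j : ℕ} (hi : i < P.h n) (hj : j < P.q n) : P.a n j + i < P.h (n + 1) := by
  have := P.fit n j hj; omega

lemma a_lt {n j j' : ℕ} (h : j < j') (hj' : j' < P.q n) : P.a n j + P.h n ≤ P.a n j' := by
  induction j' with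
  | zero => omega
  | succ k ih =>
    rcases Nat.lt_succ_iff_lt_or_eq.mp h with h' | h'
    · have := ih h' (by omega); have := P.gap n k hj'; omega
    · subst h'; exact P.gap n j hj'

lemma copy_inj {n i i' j j' : ℕ} (hi : i < P.h n) (hi' : i' < P.h n) (hj : j < P.q n)
    (hj' : j' < P.q n) (e : P.a n j + i = P.a n j' + i') : i = i' ∧ j = j' := by
  rcases lt_trichotomy j j' with h | h | h
  · have := P.a_lt h hj'; omega
  · subst h; omega
  · have := P.a_lt h hj; omega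

lemma h_mul_le (n : ℕ) : P.h n * P.q n ≤ P.h (n + 1) := by
  have : ∀ j, j < P.q n → (j + 1) * P.h n ≤ P.a n j + P.h n := by
    intro j
    induction j with
    | zero => intro _; simp
    | succ k ih => intro hk; have := ih (by omega); have := P.gap n k hk; nlinarith
  have hq := P.q_two n
  have h1 := this (P.q n - 1) (by omega)
  have h2 := P.fit n (P.q n - 1) (by omega)
  rw [show P.q n - 1 + 1 = P.q n by omega] at h1
  rw [mul_comm]; omega

lemma h_pos' (n : ℕ) : 0 < P.h n := by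
  induction n with
  | zero => exact P.h_pos
  | succ n ih =>
    exact lt_of_lt_of_le (Nat.mul_pos ih (by have := P.q_two n; omega)) (P.h_mul_le n)

/-- The product of the cutting numbers. -/
noncomputable def Q (n : ℕ) : ℝ := ∏ k ∈ Finset.range n, (P.q k : ℝ)

lemma Q_pos (n : ℕ) : 0 < P.Q n :=
  Finset.prod_pos fun k _ => by have := P.q_two k; exact_mod_cast (by omega : 0 < P.q k)

/-- The total mass before normalisation. -/
noncomputable def Om : ℝ := ⨆ n, (P.h n : ℝ) / P.Q n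

lemma ratio_mono : Monotone fun n => (P.h n : ℝ) / P.Q n := by
  refine monotone_nat_of_le_succ fun n => ?_
  have hq : 0 < (P.q n : ℝ) := by have := P.q_two n; exact_mod_cast (by omega : 0 < P.q n)
  show (P.h n : ℝ) / P.Q n ≤ (P.h (n + 1) : ℝ) / P.Q (n + 1)
  have hQ : P.Q (n + 1) = P.Q n * P.q n := Finset.prod_range_succ _ _
  rw [hQ, div_le_div_iff₀ (P.Q_pos n) (mul_pos (P.Q_pos n) hq)]
  have h : (P.h n : ℝ) * P.q n ≤ P.h (n + 1) := by exact_mod_cast P.h_mul_le n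
  nlinarith [P.Q_pos n]

lemma Om_pos : 0 < P.Om :=
  lt_of_lt_of_le (by simpa [Q] using P.h_pos) (le_ciSup P.bdd 0)

/-- The width of a level of tower `n`. -/
noncomputable def w (n : ℕ) : ℝ := 1 / (P.Om * P.Q n)

lemma w_pos (n : ℕ) : 0 < P.w n := div_pos one_pos (mul_pos P.Om_pos (P.Q_pos n))

lemma w_succ (n : ℕ) : P.w (n + 1) * P.q n = P.w n := by
  have := P.Om_pos; have := P.Q_pos n
  have : (P.q n : ℝ) ≠ 0 := by have := P.q_two n; exact_mod_cast (by omega : P.q n ≠ 0)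
  rw [w, w, show P.Q (n + 1) = P.Q n * P.q n from Finset.prod_range_succ _ _]
  field_simp

lemma h_mul_w_le_one (n : ℕ) : (P.h n : ℝ) * P.w n ≤ 1 := by
  rw [w, mul_one_div, div_le_one (mul_pos P.Om_pos (P.Q_pos n)), ← div_le_iff₀ (P.Q_pos n)]
  exact le_ciSup P.bdd n

lemma tendsto_h_mul_w : Tendsto (fun n => (P.h n : ℝ) * P.w n) atTop (𝓝 1) := by
  have h := (tendsto_atTop_ciSup P.ratio_mono P.bdd).div_const P.Om
  have e : (fun n => (P.h n : ℝ) * P.w n) = fun n => (P.h n : ℝ) / P.Q n / P.Om := by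
    funext n; rw [w, div_div, mul_one_div, mul_comm P.Om]
  rw [e, ← div_self P.Om_pos.ne']
  exact h

lemma tendsto_w : Tendsto P.w atTop (𝓝 0) := by
  have h2 : ∀ n, P.w n ≤ (1 / P.Om) * (1 / 2) ^ n := by
    intro n
    have hQ : (2 : ℝ) ^ n ≤ P.Q n := by
      rw [Q, ← Finset.card_range n, ← Finset.prod_const, Finset.card_range]
      exact Finset.prod_le_prod (fun _ _ => by norm_num)
        fun k _ => by exact_mod_cast P.q_two k
    have := P.Om_pos
    rw [w, div_pow, one_pow, div_mul_div_comm, mul_one]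
    gcongr
  refine squeeze_zero (fun n => (P.w_pos n).le) h2 ?_
  rw [← mul_zero (1 / P.Om)]
  exact (tendsto_pow_atTop_nhds_zero_of_lt_one (by norm_num) (by norm_num)).const_mul _

lemma exists_step (n : ℕ) (σ : Equiv.Perm (Fin (P.h n))) :
    ∃ τ : Equiv.Perm (Fin (P.h (n + 1))), ∀ (i : Fin (P.h n)) (j : Fin (P.q n)),
      (τ ⟨P.a n j + i, P.copy_lt i.2 j.2⟩ : ℕ) = (σ i : ℕ) * P.q n + j := by
  classical
  let f : Fin (P.h n) × Fin (P.q n) → Fin (P.h (n + 1)) :=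
    fun p => ⟨P.a n p.2 + p.1, P.copy_lt p.1.2 p.2.2⟩
  let g : Fin (P.h n) × Fin (P.q n) → Fin (P.h (n + 1)) := fun p =>
    ⟨(σ p.1 : ℕ) * P.q n + p.2, lt_of_lt_of_le
      (by have := (σ p.1).2; have := p.2.2; nlinarith) (P.h_mul_le n)⟩
  have hf : Function.Injective f := by
    rintro ⟨i, j⟩ ⟨i', j'⟩ e
    obtain ⟨e1, e2⟩ := P.copy_inj i.2 i'.2 j.2 j'.2 (congrArg Fin.val e)
    exact Prod.ext (Fin.ext e1) (Fin.ext e2)
  have hg : Function.Injective g := by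
    rintro ⟨i, j⟩ ⟨i', j'⟩ e
    have e' : (σ i : ℕ) * P.q n + j = (σ i' : ℕ) * P.q n + j' := congrArg Fin.val e
    have h1 := congrArg (· % P.q n) e'
    simp [Nat.mod_eq_of_lt j.2, Nat.mod_eq_of_lt j'.2] at h1
    rw [h1] at e'
    have h2 : (σ i : ℕ) = (σ i' : ℕ) :=
      Nat.eq_of_mul_eq_mul_right (by have := P.q_two n; omega) (Nat.add_right_cancel e')
    exact Prod.ext (σ.injective (Fin.ext h2)) (Fin.ext h1)
  let e0 : {x // x ∈ range f} ≃ {x // x ∈ range g} :=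
    (Equiv.ofInjective f hf).symm.trans (Equiv.ofInjective g hg)
  refine ⟨e0.extendSubtype, fun i j => ?_⟩
  rw [Equiv.extendSubtype_apply_of_mem e0 _ ⟨(i, j), rfl⟩]
  have : (Equiv.ofInjective f hf).symm ⟨f (i, j), ⟨(i, j), rfl⟩⟩ = (i, j) :=
    (Equiv.symm_apply_eq _).mpr rfl
  simp only [e0, Equiv.trans_apply]
  erw [this]
  rfl

/-- The slot in `[0, 1)` of each level, compatible with the copies. -/
noncomputable def slot : (n : ℕ) → Equiv.Perm (Fin (P.h n))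
  | 0 => Equiv.refl _
  | n + 1 => Classical.choose (P.exists_step n (slot n))

lemma slot_succ (n : ℕ) (i : Fin (P.h n)) (j : Fin (P.q n)) :
    (P.slot (n + 1) ⟨P.a n j + i, P.copy_lt i.2 j.2⟩ : ℕ) = (P.slot n i : ℕ) * P.q n + j :=
  Classical.choose_spec (P.exists_step n (P.slot n)) i j

/-- The left endpoint of level `ℓ` of tower `n`. -/
noncomputable def pos (n : ℕ) (ℓ : Fin (P.h n)) : ℝ := (P.slot n ℓ : ℕ) * P.w n

/-- Level `ℓ` of tower `n`. -/
def Lev (n : ℕ) (ℓ : Fin (P.h n)) : Set ℝ := Ico (P.pos n ℓ) (P.pos n ℓ + P.w n)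

lemma lev_subset (n : ℕ) (ℓ : Fin (P.h n)) : P.Lev n ℓ ⊆ Ico 0 1 := by
  intro t ht
  have h2 : ((P.slot n ℓ : ℕ) : ℝ) + 1 ≤ P.h n := by exact_mod_cast (P.slot n ℓ).2
  have := P.h_mul_w_le_one n
  have := P.w_pos n
  simp only [Lev, pos, mem_Ico] at ht ⊢
  have : 0 ≤ ((P.slot n ℓ : ℕ) : ℝ) * P.w n := by positivity
  exact ⟨by linarith, by nlinarith⟩

lemma lev_inj {n : ℕ} {ℓ ℓ' : Fin (P.h n)} {t : ℝ} (h : t ∈ P.Lev n ℓ) (h' : t ∈ P.Lev n ℓ') :
    ℓ = ℓ' := by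
  have := P.w_pos n
  simp only [Lev, pos, mem_Ico] at h h'
  have h1 : ((P.slot n ℓ : ℕ) : ℝ) < ((P.slot n ℓ' : ℕ) : ℝ) + 1 := by nlinarith
  have h2 : ((P.slot n ℓ' : ℕ) : ℝ) < ((P.slot n ℓ : ℕ) : ℝ) + 1 := by nlinarith
  have h1' : (P.slot n ℓ : ℕ) < (P.slot n ℓ' : ℕ) + 1 := by exact_mod_cast h1
  have h2' : (P.slot n ℓ' : ℕ) < (P.slot n ℓ : ℕ) + 1 := by exact_mod_cast h2
  exact (P.slot n).injective (Fin.ext (by omega))

lemma pos_copy (n : ℕ) (i : Fin (P.h n)) (j : Fin (P.q n)) :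
    P.pos (n + 1) ⟨P.a n j + i, P.copy_lt i.2 j.2⟩ = P.pos n i + (j : ℕ) * P.w (n + 1) := by
  rw [pos, pos, P.slot_succ, ← P.w_succ n]
  push_cast
  ring

lemma exists_copy {n : ℕ} {i : Fin (P.h n)} {t : ℝ} (ht : t ∈ P.Lev n i) :
    ∃ j : Fin (P.q n), t ∈ P.Lev (n + 1) ⟨P.a n j + i, P.copy_lt i.2 j.2⟩ := by
  have hw := P.w_pos (n + 1)
  obtain ⟨h1, h2⟩ := ht
  set y := (t - P.pos n i) / P.w (n + 1) with hy
  have hy0 : 0 ≤ y := div_nonneg (by linarith) hw.le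
  have hyq : y < P.q n := by
    rw [hy, div_lt_iff₀ hw, mul_comm, P.w_succ]; linarith
  refine ⟨⟨⌊y⌋₊, (Nat.floor_lt hy0).mpr hyq⟩, ?_⟩
  rw [Lev, P.pos_copy, mem_Ico]
  have h3 := Nat.floor_le hy0
  have h4 := Nat.lt_floor_add_one y
  rw [hy, le_div_iff₀ hw] at h3
  rw [hy, div_lt_iff₀ hw] at h4
  constructor <;> push_cast at * <;> nlinarith

/-- `t` lies in a level of tower `n` from which `z` steps stay inside the tower. -/
def Can (n : ℕ) (z : ℤ) : Set ℝ :=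
  ⋃ ℓ ∈ (Finset.univ : Finset (Fin (P.h n))).filter
    (fun ℓ : Fin (P.h n) => 0 ≤ (ℓ : ℤ) + z ∧ (ℓ : ℤ) + z < P.h n), P.Lev n ℓ

/-- The displacement of `z` steps from level `ℓ` of tower `n`. -/
noncomputable def disp (n : ℕ) (ℓ : Fin (P.h n)) (z : ℤ) : ℝ :=
  if h : 0 ≤ (ℓ : ℤ) + z ∧ (ℓ : ℤ) + z < P.h n then
    P.pos n ⟨((ℓ : ℤ) + z).toNat, by omega⟩ - P.pos n ℓ
  else 0

lemma deepen {n m : ℕ} (hnm : n ≤ m) {ℓ : Fin (P.h n)} {t : ℝ} (ht : t ∈ P.Lev n ℓ) :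
    ∃ ℓ' : Fin (P.h m), t ∈ P.Lev m ℓ' ∧ ∀ z : ℤ, 0 ≤ (ℓ : ℤ) + z → (ℓ : ℤ) + z < P.h n →
      (0 ≤ (ℓ' : ℤ) + z ∧ (ℓ' : ℤ) + z < P.h m) ∧ P.disp m ℓ' z = P.disp n ℓ z := by
  induction m, hnm using Nat.le_induction with
  | base => exact ⟨ℓ, ht, fun z h1 h2 => ⟨⟨h1, h2⟩, rfl⟩⟩
  | succ m hm ih =>
    obtain ⟨i, hi, hz⟩ := ih
    obtain ⟨j, hj⟩ := P.exists_copy hi
    refine ⟨_, hj, fun z h1 h2 => ?_⟩
    obtain ⟨⟨b1, b2⟩, b3⟩ := hz z h1 h2
    have hlt : ((i : ℤ) + z).toNat < P.h m := by omega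
    have hc := P.copy_lt hlt j.2
    have c1 : 0 ≤ ((P.a m j + i : ℕ) : ℤ) + z ∧ ((P.a m j + i : ℕ) : ℤ) + z < P.h (m + 1) := by
      push_cast; omega
    refine ⟨c1, ?_⟩
    rw [← b3, disp, disp, dif_pos c1, dif_pos ⟨b1, b2⟩, P.pos_copy]
    have e : (⟨(((P.a m j + i : ℕ) : ℤ) + z).toNat, by omega⟩ : Fin (P.h (m + 1))) =
        ⟨P.a m j + ((i : ℤ) + z).toNat, hc⟩ := Fin.ext (by simp only; omega)
    rw [e, P.pos_copy m ⟨_, hlt⟩ j]
    ring

lemma mem_can {n : ℕ} {z : ℤ} {t : ℝ} :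
    t ∈ P.Can n z ↔ ∃ ℓ : Fin (P.h n), (0 ≤ (ℓ : ℤ) + z ∧ (ℓ : ℤ) + z < P.h n) ∧ t ∈ P.Lev n ℓ := by
  simp [Can, and_assoc]

/-- Points whose whole orbit is defined. -/
def Good : Set ℝ := ⋂ z : ℤ, ⋃ n, P.Can n z

/-- `z` steps of the transformation (the identity outside `Good`). -/
noncomputable def step (z : ℤ) (t : ℝ) : ℝ :=
  open Classical in
  if h : t ∈ P.Good ∧ ∃ p : Σ n, Fin (P.h n),
      (0 ≤ (p.2 : ℤ) + z ∧ (p.2 : ℤ) + z < P.h p.1) ∧ t ∈ P.Lev p.1 p.2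
  then t + P.disp h.2.choose.1 h.2.choose.2 z else t

lemma step_eq {t : ℝ} (ht : t ∈ P.Good) {n : ℕ} {ℓ : Fin (P.h n)} (hl : t ∈ P.Lev n ℓ) {z : ℤ}
    (h0 : 0 ≤ (ℓ : ℤ) + z) (h1 : (ℓ : ℤ) + z < P.h n) : P.step z t = t + P.disp n ℓ z := by
  have hex : ∃ p : Σ n, Fin (P.h n),
      (0 ≤ (p.2 : ℤ) + z ∧ (p.2 : ℤ) + z < P.h p.1) ∧ t ∈ P.Lev p.1 p.2 := ⟨⟨n, ℓ⟩, ⟨h0, h1⟩, hl⟩
  rw [step, dif_pos ⟨ht, hex⟩]
  obtain ⟨⟨c0, c1⟩, cl⟩ := hex.choose_spec
  congr 1
  obtain ⟨l1, m1, e1⟩ := P.deepen (le_max_left hex.choose.1 n) cl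
  obtain ⟨l2, m2, e2⟩ := P.deepen (le_max_right hex.choose.1 n) hl
  have := P.lev_inj m1 m2
  subst this
  rw [← (e1 z c0 c1).2, ← (e2 z h0 h1).2]

lemma mem_lev_step {t : ℝ} (ht : t ∈ P.Good) {n : ℕ} {ℓ : Fin (P.h n)} (hl : t ∈ P.Lev n ℓ)
    {z : ℤ} (h0 : 0 ≤ (ℓ : ℤ) + z) (h1 : (ℓ : ℤ) + z < P.h n) :
    P.step z t ∈ P.Lev n ⟨((ℓ : ℤ) + z).toNat, by omega⟩ := by
  rw [P.step_eq ht hl h0 h1, disp, dif_pos ⟨h0, h1⟩]
  simp only [Lev, mem_Ico] at hl ⊢
  constructor <;> linarith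

lemma exists_two {t : ℝ} (ht : t ∈ P.Good) (z z' : ℤ) :
    ∃ (n : ℕ) (ℓ : Fin (P.h n)), t ∈ P.Lev n ℓ ∧ (0 ≤ (ℓ : ℤ) + z ∧ (ℓ : ℤ) + z < P.h n) ∧
      (0 ≤ (ℓ : ℤ) + z' ∧ (ℓ : ℤ) + z' < P.h n) := by
  obtain ⟨n, hn⟩ := mem_iUnion.mp (mem_iInter.mp ht z)
  obtain ⟨n', hn'⟩ := mem_iUnion.mp (mem_iInter.mp ht z')
  obtain ⟨l, hl, hlt⟩ := P.mem_can.mp hn
  obtain ⟨l', hl', hlt'⟩ := P.mem_can.mp hn'
  obtain ⟨l1, m1, e1⟩ := P.deepen (le_max_left n n') hlt
  obtain ⟨l2, m2, e2⟩ := P.deepen (le_max_right n n') hlt'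
  have := P.lev_inj m1 m2
  subst this
  exact ⟨_, l1, m1, (e1 z hl.1 hl.2).1, (e2 z' hl'.1 hl'.2).1⟩

lemma step_mem_good {t : ℝ} (ht : t ∈ P.Good) (z : ℤ) : P.step z t ∈ P.Good := by
  refine mem_iInter.mpr fun z' => mem_iUnion.mpr ?_
  obtain ⟨n, ℓ, hl, h1, h2⟩ := P.exists_two ht z (z + z')
  refine ⟨n, P.mem_can.mpr ⟨_, ?_, P.mem_lev_step ht hl h1.1 h1.2⟩⟩
  dsimp only
  omega

lemma step_step (z z' : ℤ) (t : ℝ) : P.step z' (P.step z t) = P.step (z + z') t := by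
  by_cases ht : t ∈ P.Good
  · obtain ⟨n, ℓ, hl, h1, h2⟩ := P.exists_two ht z (z + z')
    rw [P.step_eq (P.step_mem_good ht z) (P.mem_lev_step ht hl h1.1 h1.2)
      (by dsimp only; omega) (by dsimp only; omega),
      P.step_eq ht hl h1.1 h1.2, P.step_eq ht hl h2.1 h2.2]
    rw [disp, disp, disp, dif_pos h1, dif_pos h2, dif_pos (by dsimp only; omega)]
    have : (((⟨((ℓ : ℤ) + z).toNat, by omega⟩ : Fin (P.h n)) : ℕ) : ℤ) + z' = (ℓ : ℤ) + (z + z') := by
      dsimp only; omega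
    simp only [this]
    ring
  · simp [step, ht]

lemma step_zero (t : ℝ) : P.step 0 t = t := by
  by_cases ht : t ∈ P.Good
  · obtain ⟨n, ℓ, hl, h1, -⟩ := P.exists_two ht 0 0
    rw [P.step_eq ht hl h1.1 h1.2, disp, dif_pos h1]
    simp
  · simp [step, ht]

lemma measurableSet_lev (n : ℕ) (ℓ : Fin (P.h n)) : MeasurableSet (P.Lev n ℓ) := measurableSet_Ico

lemma measurableSet_can (n : ℕ) (z : ℤ) : MeasurableSet (P.Can n z) :=
  Finset.measurableSet_biUnion _ fun ℓ _ => P.measurableSet_lev n ℓ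

lemma measurableSet_good : MeasurableSet P.Good :=
  MeasurableSet.iInter fun z => MeasurableSet.iUnion fun n => P.measurableSet_can n z

lemma measurable_step (z : ℤ) : Measurable (P.step z) := by
  intro B hB
  have e : P.step z ⁻¹' B = (B \ P.Good) ∪ ⋃ n, ⋃ ℓ ∈ (Finset.univ : Finset (Fin (P.h n))).filter
      (fun ℓ : Fin (P.h n) => 0 ≤ (ℓ : ℤ) + z ∧ (ℓ : ℤ) + z < P.h n),
        P.Good ∩ P.Lev n ℓ ∩ (fun t => t + P.disp n ℓ z) ⁻¹' B := by
    ext t
    simp only [mem_preimage, mem_union, Set.mem_sdiff, mem_iUnion, Finset.mem_filter,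
      Finset.mem_univ, true_and, mem_inter_iff, exists_prop]
    by_cases ht : t ∈ P.Good
    · constructor
      · intro h
        obtain ⟨n, ℓ, hl, h1, -⟩ := P.exists_two ht z z
        exact Or.inr ⟨n, ℓ, h1, ⟨ht, hl⟩, by rwa [P.step_eq ht hl h1.1 h1.2] at h⟩
      · rintro (⟨-, h⟩ | ⟨n, ℓ, h1, ⟨-, hl⟩, h⟩)
        · exact absurd ht h
        · rwa [P.step_eq ht hl h1.1 h1.2]
    · simp [step, ht]
  rw [e]
  exact (hB.diff P.measurableSet_good).union (MeasurableSet.iUnion fun n =>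
    Finset.measurableSet_biUnion _ fun ℓ _ => (P.measurableSet_good.inter
      (P.measurableSet_lev n ℓ)).inter (hB.preimage (by fun_prop)))

/-- The transformation. -/
noncomputable def T : ℝ ≃ᵐ ℝ where
  toFun := P.step 1
  invFun := P.step (-1)
  left_inv t := by rw [P.step_step, show (1 : ℤ) + -1 = 0 by rfl, P.step_zero]
  right_inv t := by rw [P.step_step, show (-1 : ℤ) + 1 = 0 by rfl, P.step_zero]
  measurable_toFun := P.measurable_step 1
  measurable_invFun := P.measurable_step (-1)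

lemma T_zpow (z : ℤ) (t : ℝ) : (P.T.toEquiv ^ z : Equiv.Perm ℝ) t = P.step z t := by
  induction z using Int.induction_on generalizing t with
  | zero => simp [P.step_zero]
  | succ k ih =>
    rw [zpow_add_one, Equiv.Perm.mul_apply, ih]
    show P.step k (P.step 1 t) = _
    rw [P.step_step]; congr 1; ring
  | pred k ih =>
    rw [zpow_sub_one, Equiv.Perm.mul_apply, ih]
    show P.step (-k) (P.step (-1) t) = _
    rw [P.step_step]; congr 1; ring

/-- Lebesgue measure on `[0, 1)`. -/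
noncomputable def μ : Measure ℝ := volume.restrict (Ico 0 1)

instance : IsProbabilityMeasure μ := ⟨by simp [μ]⟩

instance : NullSingletonClass μ := by unfold μ; infer_instance

lemma μ_lev (n : ℕ) (ℓ : Fin (P.h n)) : μ (P.Lev n ℓ) = ENNReal.ofReal (P.w n) := by
  rw [μ, Measure.restrict_eq_self _ (P.lev_subset n ℓ), Lev, Real.volume_Ico, add_sub_cancel_left]

lemma disjoint_lev (n : ℕ) {ℓ ℓ' : Fin (P.h n)} (h : ℓ ≠ ℓ') :
    Disjoint (P.Lev n ℓ) (P.Lev n ℓ') :=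
  Set.disjoint_left.mpr fun _ ht ht' => h (P.lev_inj ht ht')

lemma card_valid (n : ℕ) (z : ℤ) :
    P.h n ≤ ((Finset.univ : Finset (Fin (P.h n))).filter
      (fun ℓ : Fin (P.h n) => 0 ≤ (ℓ : ℤ) + z ∧ (ℓ : ℤ) + z < P.h n)).card + z.natAbs := by
  classical
  have h := Finset.card_filter_add_card_filter_not (s := (Finset.univ : Finset (Fin (P.h n))))
    (fun ℓ : Fin (P.h n) => 0 ≤ (ℓ : ℤ) + z ∧ (ℓ : ℤ) + z < P.h n)
  rw [Finset.card_univ, Fintype.card_fin] at h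
  set S := (Finset.univ : Finset (Fin (P.h n))).filter
      (fun ℓ : Fin (P.h n) => ¬(0 ≤ (ℓ : ℤ) + z ∧ (ℓ : ℤ) + z < P.h n)) with hS
  have h2 : S.card ≤ (Finset.range z.natAbs).card := by
    refine Finset.card_le_card_of_injOn
      (fun ℓ => if 0 ≤ z then P.h n - 1 - (ℓ : ℕ) else (ℓ : ℕ)) ?_ ?_
    · intro ℓ hℓ
      simp only [hS, Finset.mem_coe, Finset.mem_filter, Finset.mem_univ, true_and,
        Finset.mem_range] at hℓ ⊢
      have := ℓ.2
      split_ifs <;> omega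
    · intro a _ b _ e
      have := a.2; have := b.2
      simp only at e
      apply Fin.ext
      split_ifs at e <;> omega
  rw [Finset.card_range] at h2
  omega

lemma real_can (n : ℕ) (z : ℤ) :
    (P.h n : ℝ) * P.w n - z.natAbs * P.w n ≤ μ.real (P.Can n z) := by
  rw [Can, measureReal_biUnion_finset (fun a _ b _ h => P.disjoint_lev n h)
    (fun ℓ _ => P.measurableSet_lev n ℓ)]
  simp only [Measure.real, μ_lev, ENNReal.toReal_ofReal (P.w_pos n).le, Finset.sum_const,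
    nsmul_eq_mul]
  have := P.w_pos n
  have h : (P.h n : ℝ) ≤ ((((Finset.univ : Finset (Fin (P.h n))).filter
      (fun ℓ : Fin (P.h n) => 0 ≤ (ℓ : ℤ) + z ∧ (ℓ : ℤ) + z < P.h n)).card : ℕ) : ℝ) + (z.natAbs : ℕ) := by
    exact_mod_cast P.card_valid n z
  nlinarith

lemma tendsto_can (z : ℤ) : Tendsto (fun n => μ.real (P.Can n z)) atTop (𝓝 1) := by
  have h := P.tendsto_h_mul_w.sub (P.tendsto_w.const_mul (z.natAbs : ℝ))
  rw [mul_zero, sub_zero] at h
  exact tendsto_of_tendsto_of_tendsto_of_le_of_le h tendsto_const_nhds (fun n => P.real_can n z)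
    fun n => measureReal_le_one

lemma ae_good : ∀ᵐ t ∂μ, t ∈ P.Good := by
  simp only [Good, mem_iInter]
  rw [ae_all_iff]
  intro z
  have hm : MeasurableSet (⋃ n, P.Can n z) := MeasurableSet.iUnion fun n => P.measurableSet_can n z
  refine (ae_iff_measure_eq hm.nullMeasurableSet).mpr ?_
  have h1 : (1 : ℝ) ≤ μ.real (⋃ n, P.Can n z) :=
    le_of_tendsto' (P.tendsto_can z) fun n => measureReal_mono (subset_iUnion (fun m => P.Can m z) n)
  have h2 := measureReal_le_one (μ := μ) (s := ⋃ n, P.Can n z)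
  rw [measure_univ, ← ENNReal.toReal_eq_one_iff]
  exact le_antisymm h2 h1

lemma μ_translate {n : ℕ} {ℓ : Fin (P.h n)} {z : ℤ} (h0 : 0 ≤ (ℓ : ℤ) + z)
    (h1 : (ℓ : ℤ) + z < P.h n) (B : Set ℝ) :
    μ (P.step z ⁻¹' B ∩ P.Lev n ℓ) = μ (B ∩ P.Lev n ⟨((ℓ : ℤ) + z).toNat, by omega⟩) := by
  set ℓ' : Fin (P.h n) := ⟨((ℓ : ℤ) + z).toNat, by omega⟩ with hℓ'
  set d := P.disp n ℓ z with hd
  have hae : (P.step z ⁻¹' B ∩ P.Lev n ℓ : Set ℝ) =ᵐ[μ]
      ((fun t => t + d) ⁻¹' (B ∩ P.Lev n ℓ') : Set ℝ) := by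
    filter_upwards [P.ae_good] with t ht
    apply propext
    have hdp : d = P.pos n ℓ' - P.pos n ℓ := by rw [hd, disp, dif_pos ⟨h0, h1⟩]
    show (P.step z t ∈ B ∧ t ∈ P.Lev n ℓ) ↔ (t + d ∈ B ∧ t + d ∈ P.Lev n ℓ')
    have key : t ∈ P.Lev n ℓ ↔ t + d ∈ P.Lev n ℓ' := by
      simp only [Lev, mem_Ico, hdp]; constructor <;> rintro ⟨u, v⟩ <;> constructor <;> linarith
    constructor
    · rintro ⟨hB, hl⟩; exact ⟨by rwa [P.step_eq ht hl h0 h1] at hB, key.mp hl⟩
    · rintro ⟨hB, hl⟩; exact ⟨by rwa [P.step_eq ht (key.mpr hl) h0 h1], key.mpr hl⟩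
  rw [measure_congr hae, μ, Measure.restrict_eq_self _ ?_,
    Measure.restrict_eq_self _ (inter_subset_right.trans (P.lev_subset n ℓ')),
    measure_preimage_add_right]
  intro t ht
  apply P.lev_subset n ℓ
  have hdp : d = P.pos n ℓ' - P.pos n ℓ := by rw [hd, disp, dif_pos ⟨h0, h1⟩]
  obtain ⟨-, u, v⟩ := ht
  simp only at u v
  exact ⟨by linarith, by linarith⟩

lemma real_preimage_can (n : ℕ) (z : ℤ) {B : Set ℝ} (hB : MeasurableSet B) :
    μ.real (P.step z ⁻¹' B ∩ P.Can n z) = μ.real (B ∩ P.Can n (-z)) := by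
  rw [Can, Can, inter_iUnion₂, inter_iUnion₂,
    measureReal_biUnion_finset
      (fun a _ b _ h => (P.disjoint_lev n h).mono inter_subset_right inter_subset_right)
      (fun ℓ _ => (P.measurable_step z hB).inter (P.measurableSet_lev n ℓ)),
    measureReal_biUnion_finset
      (fun a _ b _ h => (P.disjoint_lev n h).mono inter_subset_right inter_subset_right)
      (fun ℓ _ => hB.inter (P.measurableSet_lev n ℓ))]
  refine Finset.sum_bij'
    (fun ℓ hℓ => ⟨((ℓ : ℤ) + z).toNat, by simp only [Finset.mem_filter] at hℓ; omega⟩)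
    (fun ℓ hℓ => ⟨((ℓ : ℤ) + -z).toNat, by simp only [Finset.mem_filter] at hℓ; omega⟩)
    ?_ ?_ ?_ ?_ ?_
  · intro ℓ hℓ
    simp only [Finset.mem_filter, Finset.mem_univ, true_and] at hℓ ⊢
    have := ℓ.2; omega
  · intro ℓ hℓ
    simp only [Finset.mem_filter, Finset.mem_univ, true_and] at hℓ ⊢
    have := ℓ.2; omega
  · intro ℓ hℓ
    simp only [Finset.mem_filter, Finset.mem_univ, true_and] at hℓ
    exact Fin.ext (by simp only; omega)
  · intro ℓ hℓ
    simp only [Finset.mem_filter, Finset.mem_univ, true_and] at hℓ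
    exact Fin.ext (by simp only; omega)
  · intro ℓ hℓ
    simp only [Finset.mem_filter, Finset.mem_univ, true_and] at hℓ
    simp only [Measure.real, P.μ_translate hℓ.1 hℓ.2 B]

lemma measurePreserving_step (z : ℤ) : MeasurePreserving (P.step z) μ μ := by
  refine ⟨P.measurable_step z, Measure.ext fun B hB => ?_⟩
  rw [Measure.map_apply (P.measurable_step z) hB, ← measureReal_eq_measureReal_iff]
  have lim : ∀ (A : Set ℝ) (w : ℤ), Tendsto (fun n => μ.real (A ∩ P.Can n w)) atTop (𝓝 (μ.real A)) := by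
    intro A w
    have h := (tendsto_const_nhds (x := μ.real A)).sub ((tendsto_const_nhds (x := (1 : ℝ))).sub (P.tendsto_can w))
    rw [sub_self, sub_zero] at h
    refine tendsto_of_tendsto_of_tendsto_of_le_of_le h tendsto_const_nhds (fun n => ?_)
      fun n => measureReal_mono inter_subset_left
    have h1 := measureReal_inter_add_sdiff (μ := μ) (s := A) (P.measurableSet_can n w)
    have h2 := measureReal_compl (μ := μ) (P.measurableSet_can n w)
    have h3 : μ.real (A \ P.Can n w) ≤ μ.real (P.Can n w)ᶜ := measureReal_mono fun t ht => ht.2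
    rw [probReal_univ] at h2
    linarith
  refine tendsto_nhds_unique (lim _ z) ?_
  simp_rw [P.real_preimage_can _ z hB]
  exact lim B (-z)

lemma measurePreserving_T : MeasurePreserving P.T μ μ := P.measurePreserving_step 1

lemma indicator_step {n : ℕ} {ℓ : Fin (P.h n)} {z : ℤ} (h0 : 0 ≤ (ℓ : ℤ) + z)
    (h1 : (ℓ : ℤ) + z < P.h n) :
    (fun t => (P.Lev n ⟨((ℓ : ℤ) + z).toNat, by omega⟩).indicator (fun _ => (1 : ℂ)) (P.step z t))
      =ᵐ[μ] (P.Lev n ℓ).indicator (fun _ => (1 : ℂ)) := by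
  set ℓ' : Fin (P.h n) := ⟨((ℓ : ℤ) + z).toNat, by omega⟩ with hℓ'
  filter_upwards [P.ae_good] with t ht
  have key : P.step z t ∈ P.Lev n ℓ' ↔ t ∈ P.Lev n ℓ := by
    refine ⟨fun h => ?_, fun h => P.mem_lev_step ht h h0 h1⟩
    have c1 : 0 ≤ ((ℓ' : ℕ) : ℤ) + -z := by simp only [hℓ']; omega
    have c2 : ((ℓ' : ℕ) : ℤ) + -z < P.h n := by have := ℓ.2; simp only [hℓ']; omega
    have h2 := P.mem_lev_step (P.step_mem_good ht z) h c1 c2
    rw [P.step_step, add_neg_cancel, P.step_zero] at h2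
    convert h2 using 2
    exact Fin.ext (by simp only [hℓ']; omega)
  simp only [Set.indicator]
  split_ifs with u v v <;> simp_all

lemma integral_lev_eq_zero {g : ℝ → ℂ} (hg : Integrable g μ)
    (h : ∀ n ℓ, ∫ t in P.Lev n ℓ, g t ∂μ = 0) : g =ᵐ[μ] 0 := by
  have hsub : ∀ A : Set ℝ, MeasurableSet A → ∫ t in A, g t ∂μ = ∫ t in A ∩ Ico 0 1, g t := fun A hA => by
    rw [μ, Measure.restrict_restrict hA]
  have hk : ∀ n k, k ≤ P.h n → ∫ t in Ico (0 : ℝ) (k * P.w n), g t ∂μ = 0 := by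
    intro n k
    induction k with
    | zero => intro _; simp
    | succ k ih =>
      intro hk
      have hw := P.w_pos n
      have hpos : P.pos n ((P.slot n).symm ⟨k, hk⟩) = k * P.w n := by simp [pos]
      have e : Ico (0 : ℝ) ((k + 1 : ℕ) * P.w n) =
          Ico (0 : ℝ) (k * P.w n) ∪ P.Lev n ((P.slot n).symm ⟨k, hk⟩) := by
        rw [Lev, hpos, Ico_union_Ico_eq_Ico (by positivity) (by linarith)]
        push_cast; congr 1; ring
      rw [e, setIntegral_union ?_ (P.measurableSet_lev _ _) hg.integrableOn hg.integrableOn,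
        ih (by omega), h, add_zero]
      rw [Lev, hpos]
      exact Ico_disjoint_Ico_same
  have hI : ∀ x, 0 ≤ x → x < 1 → ∫ t in Ico (0 : ℝ) x, g t ∂μ = 0 := by
    intro x hx hx1
    have hev : ∀ᶠ n in atTop, x < (P.h n : ℝ) * P.w n :=
      P.tendsto_h_mul_w.eventually (eventually_gt_nhds hx1)
    have hlim : Tendsto (fun n => ∫ t, (Ico (0 : ℝ) ((⌊x / P.w n⌋₊ : ℝ) * P.w n)).indicator g t ∂μ)
        atTop (𝓝 (∫ t, (Ico (0 : ℝ) x).indicator g t ∂μ)) := by
      refine tendsto_integral_of_dominated_convergence (fun t => ‖g t‖)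
        (fun n => hg.aestronglyMeasurable.indicator measurableSet_Ico) hg.norm
        (fun n => Eventually.of_forall fun t => norm_indicator_le_norm_self _ _) ?_
      refine Eventually.of_forall fun t => ?_
      by_cases ht : t ∈ Ico (0 : ℝ) x
      · have : ∀ᶠ n in atTop, P.w n < x - t :=
          P.tendsto_w.eventually (eventually_lt_nhds (by linarith [ht.2]))
        refine tendsto_const_nhds.congr' ?_
        filter_upwards [this] with n hn
        have hw := P.w_pos n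
        have hfl := Nat.lt_floor_add_one (x / P.w n)
        rw [div_lt_iff₀ hw] at hfl
        have hmem : t ∈ Ico (0 : ℝ) ((⌊x / P.w n⌋₊ : ℝ) * P.w n) := ⟨ht.1, by linarith⟩
        rw [indicator_of_mem ht, indicator_of_mem hmem]
      · refine tendsto_const_nhds.congr fun n => ?_
        have hw := P.w_pos n
        have hfl : (⌊x / P.w n⌋₊ : ℝ) ≤ x / P.w n := Nat.floor_le (div_nonneg hx hw.le)
        rw [le_div_iff₀ hw] at hfl
        have hnm : t ∉ Ico (0 : ℝ) ((⌊x / P.w n⌋₊ : ℝ) * P.w n) := fun hm =>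
          ht ⟨hm.1, lt_of_lt_of_le hm.2 hfl⟩
        rw [indicator_of_notMem ht, indicator_of_notMem hnm]
    rw [integral_indicator measurableSet_Ico] at hlim
    refine tendsto_nhds_unique hlim (tendsto_const_nhds.congr' ?_)
    filter_upwards [hev] with n hn
    rw [integral_indicator measurableSet_Ico, hk]
    have hw := P.w_pos n
    have : x / P.w n < P.h n := by rw [div_lt_iff₀ hw]; exact hn
    exact Nat.le_of_lt ((Nat.floor_lt (div_nonneg hx hw.le)).mpr this)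
  have hIio : ∀ x, ∫ t in Iio x, g t ∂μ = 0 := by
    intro x
    have h1 : ∀ y, y < 1 → ∫ t in Iio y, g t ∂μ = 0 := by
      intro y hy
      rw [hsub _ measurableSet_Iio]
      rcases lt_or_ge y 0 with h0 | h0
      · have : Iio y ∩ Ico (0 : ℝ) 1 = ∅ := by
          ext t; simp only [mem_inter_iff, mem_Iio, mem_Ico, mem_empty_iff_false, iff_false]
          rintro ⟨a, b, -⟩; linarith
        simp [this]
      · have : Iio y ∩ Ico (0 : ℝ) 1 = Ico 0 y ∩ Ico 0 1 := by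
          ext t; simp only [mem_inter_iff, mem_Iio, mem_Ico]; tauto
        rw [this, ← hsub _ measurableSet_Ico]; exact hI y h0 hy
    rcases lt_or_ge x 1 with hx | hx
    · exact h1 x hx
    have he : ∫ t in Iio x, g t ∂μ = ∫ t in Iio (1 : ℝ), g t ∂μ := by
      rw [hsub _ measurableSet_Iio, hsub _ measurableSet_Iio]
      congr 2
      ext t; simp only [mem_inter_iff, mem_Iio, mem_Ico]
      constructor <;> rintro ⟨a, b, c⟩ <;> exact ⟨by linarith, b, c⟩
    have hU : Iio (1 : ℝ) = ⋃ n : ℕ, Iio (1 - 1 / ((n : ℝ) + 1)) := by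
      ext t
      simp only [mem_Iio, mem_iUnion]
      constructor
      · intro ht
        obtain ⟨n, hn⟩ := exists_nat_one_div_lt (sub_pos.mpr ht)
        exact ⟨n, by linarith⟩
      · rintro ⟨n, hn⟩
        have : (0 : ℝ) < 1 / ((n : ℝ) + 1) := by positivity
        linarith
    rw [he, hU]
    refine tendsto_nhds_unique (tendsto_setIntegral_of_monotone (fun n => measurableSet_Iio)
      (fun a b hab => Iio_subset_Iio (by gcongr)) hg.integrableOn) ?_
    refine tendsto_const_nhds.congr fun n => (h1 _ ?_).symm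
    have : (0 : ℝ) < 1 / ((n : ℝ) + 1) := by positivity
    linarith
  have hall : ∫ t, g t ∂μ = 0 := by
    rw [← setIntegral_univ, hsub _ MeasurableSet.univ, univ_inter]
    have h2 := hIio 1
    rw [hsub _ measurableSet_Iio] at h2
    have : Iio (1 : ℝ) ∩ Ico 0 1 = Ico 0 1 := by
      ext t; simp only [mem_inter_iff, mem_Iio, mem_Ico]; tauto
    rwa [this] at h2
  refine hg.ae_eq_zero_of_forall_setIntegral_eq_zero fun A hA _ => ?_
  induction A, hA using MeasurableSpace.induction_on_inter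
    (borel_eq_generateFrom_Iio ℝ ▸ BorelSpace.measurable_eq) isPiSystem_Iio with
  | empty => simp
  | basic u hu => obtain ⟨x, rfl⟩ := hu; exact hIio x
  | compl u hu ih =>
    have := integral_add_compl (μ := μ) (f := g) hu hg
    rw [ih (measure_lt_top _ _), hall, zero_add] at this
    exact this
  | iUnion u hd hu ih =>
    rw [integral_iUnion hu hd hg.integrableOn]
    simp [fun i => ih i (measure_lt_top _ _)]

end Sched

end Vale.Agent.P130.Tower
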